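import Vale.Agent.P146.H504.Cum1
import Vale.Agent.P146.H785.Hes
import Vale.Agent.P146.H332.Fe

/-!
Cumulant domination, part 2: the Gibbs layer and the Gaussian layers.

`Fn k φ F μ Γ`: the functional `F` has the root law `μ` (its gradient is `k ⟨φ_e⟩_μ`) and all the
derivative kernels of `μ` are dominated, with the growth constant `Γ`.
* `fn_lz`: the log-partition function, with `Γ = 2`;
* `Fn.layer`: a Gaussian layer with an exponent in `(0, 1]` costs `2`.
-/

open MeasureTheory ProbabilityTheory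

namespace Vale.Agent.P146.Cum

open Vale.Agent.P157.Lv Vale.Agent.P146.H425 Vale.Agent.P146.H325 Vale.Agent.P146.H785

set_option linter.unusedSectionVars false

variable {ι X : Type} [Fintype ι] [DecidableEq ι] [Fintype X] [DecidableEq X]

/-- A functional with its root law. -/
structure Fn (k : ℝ) (φ : ι → X → ℝ) (F : (ι → ℝ) → ℝ) (μ : (ι → ℝ) → X → ℝ) (Γ : ℝ) :
    Prop where
  Γ0 : 0 ≤ Γ
  lip : ∃ B, 0 ≤ B ∧ LipB F B
  pd : ∀ e, PD e F (fun z => k * ∑ v, μ z v * φ e v)
  pk : Pk μ 1 (fun z (x : Unit → X) => μ z (x ()))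
  good : ∀ d, Good k φ μ Γ d Unit 1 (fun z x => μ z (x ()))

variable {k : ℝ} {φ : ι → X → ℝ} {F : (ι → ℝ) → ℝ} {μ : (ι → ℝ) → X → ℝ} {Γ : ℝ}

lemma sum_unit (f : X → ℝ) : ∑ x : Unit → X, f (x ()) = ∑ v, f v :=
  Fintype.sum_equiv (Equiv.funUnique Unit X) _ _ fun _ => rfl

lemma Fn.nn (h : Fn k φ F μ Γ) (z : ι → ℝ) (v : X) : 0 ≤ μ z v := h.pk.nn z fun _ => v

lemma Fn.one (h : Fn k φ F μ Γ) (z : ι → ℝ) : ∑ v, μ z v = 1 := by
  rw [← sum_unit]; exact h.pk.mass z

lemma Fn.ms (h : Fn k φ F μ Γ) (v : X) : Measurable fun z => μ z v := h.pk.ms fun _ => v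

lemma Fn.eg (h : Fn k φ F μ Γ) (v : X) : EG fun z => μ z v := h.pk.eg fun _ => v

/-! ### the Gibbs layer -/

section gibbs

variable [Nonempty X] (k) (S : ι → X → ℝ)

/-- the Gibbs weights -/
noncomputable def mg (z : ι → ℝ) (v : X) : ℝ := av k S (fun x => if x = v then 1 else 0) z

lemma sum_mg (z : ι → ℝ) (f : X → ℝ) : ∑ v, mg k S z v * f v = av k S f z := by
  have h1 : ∀ v, mg k S z v * f v = av k S (fun x => f v * (if x = v then 1 else 0)) z := by
    intro v
    rw [av_mul, mul_comm]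
    rfl
  simp_rw [h1]
  rw [← av_sum]
  congr 1
  funext x
  simp

/-- the diagonal kernel -/
noncomputable def dg (α : Type) [Fintype α] [DecidableEq α] (z : ι → ℝ) (x : α → X) : ℝ :=
  av k S (fun v => if ∀ a, x a = v then 1 else 0) z

lemma sum_dg (α : Type) [Fintype α] [DecidableEq α] [Nonempty α] (z : ι → ℝ)
    (f : (α → X) → ℝ) : ∑ x, dg k S α z x * f x = av k S (fun v => f fun _ => v) z := by
  have h1 : ∀ x : α → X, dg k S α z x * f x =
      av k S (fun v => f x * (if ∀ a, x a = v then 1 else 0)) z := by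
    intro x
    rw [av_mul, mul_comm]
    rfl
  simp_rw [h1]
  rw [← av_sum]
  congr 1
  funext v
  rw [Finset.sum_eq_single (fun _ : α => v)]
  · simp
  · intro x _ hx
    rw [if_neg, mul_zero]
    intro h
    exact hx (funext h)
  · intro h
    exact absurd (Finset.mem_univ _) h

lemma pk_dg (α : Type) [Fintype α] [DecidableEq α] [Nonempty α] :
    Pk (mg k S) 1 (dg k S α) := by
  refine ⟨zero_le_one, fun z x => av_nonneg k S (fun v => by split_ifs <;> norm_num) z,
    fun z => ?_, fun z a f => ?_, fun x => (cont_av k S _).measurable⟩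
  · have h1 := sum_dg k S α z (fun _ => 1)
    simp only [mul_one] at h1
    rw [h1, av_one]
  · rw [sum_dg k S α z (fun x => f (x a)), one_mul, sum_mg]

lemma dg_unit (z : ι → ℝ) (x : Unit → X) : dg k S Unit z x = mg k S z (x ()) := by
  unfold dg mg
  congr 1
  funext v
  have : (∀ a : Unit, x a = v) ↔ v = x () :=
    ⟨fun h => (h ()).symm, fun h _ => h.symm⟩
  simp only [this]

/-- `α ⊕ Unit ≃ Option α` -/
def eU (α : Type) : α ⊕ Unit ≃ Option α := (Equiv.optionEquivSumPUnit α).symm

lemma eU_inl {α : Type} (a : α) : eU α (Sum.inl a) = some a := rfl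
lemma eU_inr {α : Type} (u : Unit) : eU α (Sum.inr u) = none := rfl

lemma dg_ext (α : Type) [Fintype α] [DecidableEq α] [Nonempty α] (z : ι → ℝ) (x : α → X)
    (g : X → ℝ) : ∑ y, dg k S (Option α) z (ext x y) * g y =
      av k S (fun v => (if ∀ a, x a = v then 1 else 0) * g v) z := by
  have h1 : ∀ y, dg k S (Option α) z (ext x y) * g y =
      av k S (fun v => g y * (if ∀ o, ext x y o = v then 1 else 0)) z := by
    intro y
    rw [av_mul, mul_comm]
    rfl
  simp_rw [h1]
  rw [← av_sum]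
  congr 1
  funext v
  have h2 : ∀ y, (∀ o, ext x y o = v) ↔ ((∀ a, x a = v) ∧ y = v) := by
    intro y
    constructor
    · intro h
      exact ⟨fun a => h (some a), h none⟩
    · rintro ⟨h, h'⟩ o
      rcases o with _ | a
      · exact h'
      · exact h a
  simp only [h2]
  by_cases hx : ∀ a, x a = v
  · simp [hx]
  · simp [hx]

lemma good_dg : ∀ (d : ℕ) (α : Type) [Fintype α] [DecidableEq α] [Nonempty α],
    Good k S (mg k S) 2 d α 1 (dg k S α) := by
  intro d
  induction d with
  | zero => intro α _ _ _; exact (pk_dg k S α).dm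
  | succ d ih =>
    intro α _ _ _
    refine ⟨(pk_dg k S α).dm, fun z x => dg k S (Option α) z x +
      (-1) * tens (eU α) (dg k S α) (dg k S Unit) z x, fun e x => ?_, ?_⟩
    · refine (pd_av k S e (fun v => if ∀ a, x a = v then 1 else 0)).congr fun z => ?_
      congr 1
      have h1 : ∀ y, tens (eU α) (dg k S α) (dg k S Unit) z (ext x y) =
          dg k S α z x * mg k S z y := by
        intro y
        unfold tens
        rw [dg_unit]
        rfl
      simp only [h1, add_mul, Finset.sum_add_distrib]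
      rw [dg_ext]
      have h2 : ∑ y, -1 * (dg k S α z x * mg k S z y) * S e y = -(dg k S α z x * av k S (S e) z) := by
        rw [← sum_mg k S z (S e), Finset.mul_sum, ← Finset.sum_neg_distrib]
        exact Finset.sum_congr rfl fun y _ => by ring
      rw [h2]
      unfold dg
      ring
    · have h3 := (ih (Option α)).add (((ih α).tens zero_le_two (eU α) (ih Unit)).smul (-1))
      refine h3.mono zero_le_two ?_
      have h4 : (1 : ℝ) ≤ Fintype.card α := by
        exact_mod_cast Fintype.card_pos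
      rw [abs_neg, abs_one]
      linarith

/-- **The Gibbs layer.** -/
theorem fn_lz : Fn k S (H332.lz k S) (mg k S) 2 := by
  obtain ⟨L, hL, h⟩ := lip_log k S
  refine ⟨zero_le_two, ⟨L, hL, fun y w => ?_⟩, fun e => ?_, ?_, fun d => ?_⟩
  · have := h (y + w) y
    rwa [add_sub_cancel_left] at this
  · have h1 : PD e (Zp k S) (fun u => k * (Zp k S u * av k S (S e) u)) :=
      pd_of_fd (fd_Zp k S) e
    refine (h1.log fun u => (Zp_pos k S u).ne').congr fun z => ?_
    rw [sum_mg]
    have h2 := (Zp_pos k S z).ne'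
    field_simp
  · have := pk_dg k S Unit
    simpa only [funext fun z => funext fun x => dg_unit k S z x] using this
  · have := good_dg k S d Unit
    simpa only [funext fun z => funext fun x => dg_unit k S z x] using this

end gibbs

/-! ### the Gaussian layer -/

section layer

variable {m s B : ℝ}

lemma Ax_nonneg (h : LipB F B) (hB : 0 ≤ B) {ψ : (ι → ℝ) → ℝ} (hψ : EG ψ) (h0 : ∀ u, 0 ≤ ψ u)
    (x s : ℝ) (y : ι → ℝ) : 0 ≤ Ax x s F ψ y := by
  rw [← Ax_const h hB 0 x s y]
  exact Ax_mono h hB (EG.const 0) hψ h0 x s y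

lemma pd_Ax (h : LipB F B) (hB : 0 ≤ B) {D ψ ψ' : (ι → ℝ) → ℝ} {e : ι} (hF : PD e F D)
    (hD : EG D) (hψ : EG ψ) (hψ' : EG ψ') (hd : PD e ψ ψ') (x s : ℝ) :
    PD e (Ax x s F ψ) (fun y => Ax x s F ψ' y + x * (Ax x s F (fun u => ψ u * D u) y -
      Ax x s F ψ y * Ax x s F D y)) := by
  have he : EG fun u => Real.exp (x * F u) := (h.lip hB).exp_eg x
  have h1 : PD e (fun u => Real.exp (x * F u)) (fun u => Real.exp (x * F u) * (x * D u)) :=
    (hF.const_mul x).exp
  have hZ := R1C.PD_PP h1 he (he.mul (hD.const_mul x)) (fun _ => s)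
  have hN := R1C.PD_PP (h1.mul hd) (he.mul hψ)
    (((he.mul (hD.const_mul x)).mul hψ).add (he.mul hψ')) (fun _ => s)
  have hpos : ∀ y, PP (fun _ => s) (fun u => Real.exp (x * F u)) y ≠ 0 := fun y =>
    (h.pos hB y s x).ne'
  refine (hN.div hZ hpos).congr fun y => ?_
  have i1 : Integrable (fun z => Real.exp (x * F (y + s • z)) * ψ' (y + s • z)) (gI ι) :=
    Ax_int h hB hψ' x s y
  have i2 : Integrable (fun z => Real.exp (x * F (y + s • z)) *
      (ψ (y + s • z) * D (y + s • z))) (gI ι) := Ax_int h hB (hψ.mul hD) x s y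
  have e2 : PP (fun _ => s) (fun u => Real.exp (x * F u) * (x * D u) * ψ u +
      Real.exp (x * F u) * ψ' u) y = x * (∫ z, Real.exp (x * F (y + s • z)) *
      (ψ (y + s • z) * D (y + s • z)) ∂(gI ι)) +
      ∫ z, Real.exp (x * F (y + s • z)) * ψ' (y + s • z) ∂(gI ι) := by
    rw [← integral_const_mul, ← integral_add (i2.const_mul x) i1]
    refine integral_congr_ae (Filter.Eventually.of_forall fun z => ?_)
    show Real.exp (x * F (y + s • z)) * (x * D (y + s • z)) * ψ (y + s • z) +
      Real.exp (x * F (y + s • z)) * ψ' (y + s • z) = _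
    ring
  have e3 : PP (fun _ => s) (fun u => Real.exp (x * F u) * (x * D u)) y =
      x * ∫ z, Real.exp (x * F (y + s • z)) * D (y + s • z) ∂(gI ι) := by
    rw [← integral_const_mul]
    refine integral_congr_ae (Filter.Eventually.of_forall fun z => ?_)
    show Real.exp (x * F (y + s • z)) * (x * D (y + s • z)) = _
    ring
  rw [e2, e3]
  have e4 : PP (fun _ => s) (fun u => Real.exp (x * F u)) y =
    ∫ z, Real.exp (x * F (y + s • z)) ∂(gI ι) := rfl
  have e5 : PP (fun _ => s) (fun u => Real.exp (x * F u) * ψ u) y =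
    ∫ z, Real.exp (x * F (y + s • z)) * ψ (y + s • z) ∂(gI ι) := rfl
  have h0 : (∫ z, Real.exp (x * F (y + s • z)) ∂(gI ι)) ≠ 0 := (h.pos hB y s x).ne'
  rw [e4, e5]
  unfold Ax
  field_simp
  ring

lemma pd_W (h : LipB F B) (hB : 0 ≤ B) {D : (ι → ℝ) → ℝ} {e : ι} (hF : PD e F D)
    (hD : EG D) {x : ℝ} (hx : x ≠ 0) (s : ℝ) : PD e (W x s F) (Ax x s F D) := by
  have he : EG fun u => Real.exp (x * F u) := (h.lip hB).exp_eg x
  have h1 : PD e (fun u => Real.exp (x * F u)) (fun u => Real.exp (x * F u) * (x * D u)) :=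
    (hF.const_mul x).exp
  have hZ := R1C.PD_PP h1 he (he.mul (hD.const_mul x)) (fun _ => s)
  have hpos : ∀ y, PP (fun _ => s) (fun u => Real.exp (x * F u)) y ≠ 0 := fun y =>
    (h.pos hB y s x).ne'
  refine ((hZ.log hpos).const_mul (1 / x)).congr fun y => ?_
  have e3 : PP (fun _ => s) (fun u => Real.exp (x * F u) * (x * D u)) y =
      x * ∫ z, Real.exp (x * F (y + s • z)) * D (y + s • z) ∂(gI ι) := by
    rw [← integral_const_mul]
    refine integral_congr_ae (Filter.Eventually.of_forall fun z => ?_)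
    show Real.exp (x * F (y + s • z)) * (x * D (y + s • z)) = _
    ring
  have e4 : PP (fun _ => s) (fun u => Real.exp (x * F u)) y =
    ∫ z, Real.exp (x * F (y + s • z)) ∂(gI ι) := rfl
  rw [e3, e4]
  unfold Ax
  field_simp

/-- the average of a kernel -/
noncomputable def avk {α : Type} (m s : ℝ) (F : (ι → ℝ) → ℝ) (T : (ι → ℝ) → (α → X) → ℝ)
    (z : ι → ℝ) (x : α → X) : ℝ := Ax m s F (fun u => T u x) z

/-- the root law of a layer -/
noncomputable def mw (m s : ℝ) (F : (ι → ℝ) → ℝ) (μ : (ι → ℝ) → X → ℝ)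
    (z : ι → ℝ) (v : X) : ℝ := Ax m s F (fun u => μ u v) z

variable {α : Type} [Fintype α] [DecidableEq α]

lemma Pk.avk (h : LipB F B) (hB : 0 ≤ B) (hμ : ∀ v, EG fun z => μ z v) {p : ℝ}
    {P : (ι → ℝ) → (α → X) → ℝ} (hP : Pk μ p P) (m s : ℝ) :
    Pk (mw m s F μ) p (Cum.avk m s F P) := by
  refine ⟨hP.p0, fun z x => Ax_nonneg h hB (hP.eg x) (fun u => hP.nn u x) m s z, fun z => ?_,
    fun z a f => ?_, fun x => Ax_meas h hB (hP.eg x) m s⟩
  · unfold Cum.avk
    rw [← Ax_sum h hB Finset.univ (fun x _ => hP.eg x)]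
    simp only [hP.mass]
    exact Ax_const h hB p m s z
  · unfold Cum.avk mw
    have h1 : ∀ x : α → X, Ax m s F (fun u => P u x) z * f (x a) =
        Ax m s F (fun u => f (x a) * P u x) z := by
      intro x
      rw [Ax_const_mul, mul_comm]
    have h2 : ∀ v : X, Ax m s F (fun u => μ u v) z * f v =
        Ax m s F (fun u => f v * μ u v) z := by
      intro v
      rw [Ax_const_mul, mul_comm]
    simp_rw [h1, h2]
    rw [← Ax_sum h hB Finset.univ (fun x _ => (hP.eg x).const_mul _),
      ← Ax_sum h hB Finset.univ (fun v _ => (hμ v).const_mul _), ← Ax_const_mul]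
    congr 1
    funext u
    have h3 := hP.marg u a f
    simp only [mul_comm (f _)]
    exact h3

lemma Dm.avk (h : LipB F B) (hB : 0 ≤ B) (hμ : ∀ v, EG fun z => μ z v) {c : ℝ}
    {T : (ι → ℝ) → (α → X) → ℝ} (hT : Dm μ c T) (m s : ℝ) :
    Dm (mw m s F μ) c (Cum.avk m s F T) := by
  obtain ⟨P, M, p, q, hP, hM, h0, h1⟩ := hT
  refine ⟨_, _, p, q, hP.avk h hB hμ m s, hM.avk h hB hμ m s, fun z x => ?_, h1⟩
  unfold Cum.avk
  have h2 : (fun u => T u x) = fun u => P u x + (-1) * M u x := by
    funext u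
    rw [h0]
    ring
  rw [h2, Ax_add h hB (hP.eg x) ((hM.eg x).const_mul _), Ax_const_mul]
  ring

lemma good_avk (h : Fn k φ F μ Γ) (h0 : 0 < m) (h1 : m ≤ 1) (s : ℝ) :
    ∀ (d : ℕ) (α : Type) [Fintype α] [DecidableEq α] [Nonempty α] (c : ℝ)
      (T : (ι → ℝ) → (α → X) → ℝ), Good k φ μ Γ d α c T →
        Good k φ (mw m s F μ) (Γ + 2) d α c (Cum.avk m s F T) := by
  obtain ⟨B, hB, hL⟩ := h.lip
  have hΓ : 0 ≤ Γ + 2 := by have := h.Γ0; linarith
  intro d
  induction d with
  | zero => intro α _ _ _ c T hT; exact Dm.avk hL hB h.eg hT m s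
  | succ d ih =>
    intro α _ _ _ c T hT
    have hd := hT.down h.Γ0
    have hc := hT.dm.c0
    have he := fun x => hT.dm.eg x
    obtain ⟨g1, T', g2, g3⟩ := hT
    have he' := fun x => g3.dm.eg x
    have hμ := h.good d
    refine ⟨g1.avk hL hB h.eg m s, fun z x => Cum.avk m s F T' z x +
      (m * Cum.avk m s F (Cum.tens (eU α) T fun z x => μ z (x ())) z x + (-m) *
        Cum.tens (eU α) (Cum.avk m s F T) (Cum.avk m s F fun z (x : Unit → X) => μ z (x ())) z x),
      fun e x => ?_, ?_⟩
    · have i1 : ∀ y, EG fun u => T' u (ext x y) * φ e y := fun y =>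
        (he' (ext x y)).mul (EG.const _)
      have i2 : EG fun z => k * ∑ v, μ z v * φ e v :=
        (EG.sum _ fun v _ => (h.eg v).mul (EG.const _)).const_mul k
      have hp := pd_Ax (x := m) (s := s) hL hB (h.pd e) i2 (he x)
        ((EG.sum _ fun y _ => i1 y).const_mul k) (g2 e x)
      refine hp.congr fun z => ?_
      have j1 : Ax m s F (fun z => k * ∑ y, T' z (ext x y) * φ e y) z =
          k * ∑ y, Cum.avk m s F T' z (ext x y) * φ e y := by
        rw [Ax_const_mul, Ax_sum hL hB Finset.univ (fun y _ => i1 y)]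
        congr 1
        refine Finset.sum_congr rfl fun y _ => ?_
        unfold Cum.avk
        rw [mul_comm, ← Ax_const_mul]
        congr 1
        funext u
        ring
      have j2 : Ax m s F (fun z => k * ∑ v, μ z v * φ e v) z =
          k * ∑ y, mw m s F μ z y * φ e y := by
        rw [Ax_const_mul, Ax_sum hL hB Finset.univ (fun v _ => (h.eg v).mul (EG.const _))]
        congr 1
        refine Finset.sum_congr rfl fun y _ => ?_
        unfold mw
        rw [mul_comm (Ax m s F (fun u => μ u y) z), ← Ax_const_mul]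
        congr 1
        funext u
        ring
      have j3 : Ax m s F (fun u => T u x * (k * ∑ v, μ u v * φ e v)) z =
          k * ∑ y, Cum.avk m s F (Cum.tens (eU α) T fun z x => μ z (x ())) z (ext x y) *
            φ e y := by
        have e1 : (fun u => T u x * (k * ∑ v, μ u v * φ e v)) =
            fun u => k * ∑ v, φ e v * (T u x * μ u v) := by
          funext u
          rw [mul_left_comm, Finset.mul_sum]
          congr 1
          exact Finset.sum_congr rfl fun v _ => by ring
        rw [e1, Ax_const_mul, Ax_sum hL hB Finset.univ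
          (fun v _ => ((he x).mul (h.eg v)).const_mul _)]
        congr 1
        refine Finset.sum_congr rfl fun y _ => ?_
        rw [Ax_const_mul, mul_comm]
        rfl
      have j4 : ∀ y, Cum.tens (eU α) (Cum.avk m s F T)
          (Cum.avk m s F fun z (x : Unit → X) => μ z (x ())) z (ext x y) =
            Cum.avk m s F T z x * mw m s F μ z y := fun y => rfl
      rw [j1, j2, j3]
      simp only [j4]
      have j5 : Ax m s F (fun z => T z x) z = Cum.avk m s F T z x := rfl
      rw [j5]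
      simp only [Finset.mul_sum, ← Finset.sum_add_distrib, ← Finset.sum_sub_distrib]
      exact Finset.sum_congr rfl fun y _ => by ring
    · have e1 := ih (Option α) _ T' g3
      have e2 := (ih (Option α) _ _ (hd.tens h.Γ0 (eU α) hμ)).smul m
      have e3 := ((ih α _ _ hd).tens hΓ (eU α) (ih Unit _ _ hμ)).smul (-m)
      refine (e1.add (e2.add e3)).mono hΓ ?_
      have h4 : (1 : ℝ) ≤ Fintype.card α := by
        exact_mod_cast Fintype.card_pos
      rw [abs_neg, abs_of_pos h0]
      nlinarith [mul_nonneg hc h0.le, mul_le_mul_of_nonneg_left h1 hc,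
        mul_le_mul_of_nonneg_left h4 hc]

/-- **One Gaussian layer.** -/
theorem Fn.layer (h : Fn k φ F μ Γ) (h0 : 0 < m) (h1 : m ≤ 1) (s : ℝ) :
    Fn k φ (W m s F) (mw m s F μ) (Γ + 2) := by
  obtain ⟨B, hB, hL⟩ := h.lip
  refine ⟨by have := h.Γ0; linarith, ⟨B, hB, hL.W hB h0⟩, fun e => ?_, ?_, fun d => ?_⟩
  · have i2 : EG fun z => k * ∑ v, μ z v * φ e v :=
      (EG.sum _ fun v _ => (h.eg v).mul (EG.const _)).const_mul k
    refine (pd_W hL hB (h.pd e) i2 h0.ne' s).congr fun z => ?_
    rw [Ax_const_mul, Ax_sum hL hB Finset.univ (fun v _ => (h.eg v).mul (EG.const _))]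
    congr 1
    refine Finset.sum_congr rfl fun y _ => ?_
    unfold mw
    rw [mul_comm (Ax m s F (fun u => μ u y) z), ← Ax_const_mul]
    congr 1
    funext u
    ring
  · exact h.pk.avk hL hB h.eg m s
  · exact good_avk h h0 h1 s d Unit 1 _ (h.good d)

end layer

end Vale.Agent.P146.Cum
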