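import Vale.Agent.P146.H504.Cum5
import Vale.Agent.P146.H645.SkCS
import Vale.Agent.P146.H713.DeepDef
import Vale.Agent.P146.H633.Psd1

/-!
Cumulant domination, part 6: the forms of (I1), (I2) for the users; the SK model and the deep
functionals are cascades.
-/

open MeasureTheory ProbabilityTheory Matrix

namespace Vale.Agent.P146.Cum

open Vale.Agent.P157.Lv Vale.Agent.P146.H425 Vale.Agent.P146.H325
  Vale.Agent.P146.H712 Vale.Agent.P146.R1 Vale.Agent.P146.R1C Vale.Agent.P146.R1S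
open Vale.Agent.P146.H633 (pj)

set_option linter.unusedSectionVars false

/-! ### the instances -/

section inst

variable {ι X : Type} [Fintype ι] [DecidableEq ι] [Fintype X] [DecidableEq X]

lemma Fn.congr {k : ℝ} {φ : ι → X → ℝ} {F : (ι → ℝ) → ℝ} {μ μ' : (ι → ℝ) → X → ℝ} {Γ : ℝ}
    (h : Fn k φ F μ Γ) (h' : ∀ z v, μ z v = μ' z v) : Fn k φ F μ' Γ := by
  have e : μ = μ' := funext fun z => funext fun v => h' z v
  rw [← e]
  exact h

/-- The value function of a cascade. -/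
theorem Fn.uu {k x Γ : ℝ} {φ : ι → X → ℝ} {F : (ι → ℝ) → ℝ} {μ : (ι → ℝ) → X → ℝ}
    (h : Fn k φ F μ Γ) (h0 : 0 < x) (h1 : x ≤ 1) (s : ℝ) :
    Fn k φ (R1.uu x s F) (fun z v => H785.Ax x (√(1 - s)) F (fun u => μ u v) z) (Γ + 2) :=
  h.layer h0 h1 (√(1 - s))

/-- **The deep functionals are cascades.** -/
theorem Fn.FD {k Γ : ℝ} {φ : ι → X → ℝ} {F : (ι → ℝ) → ℝ} {μ : (ι → ℝ) → X → ℝ}
    (h : Fn k φ F μ Γ) {m σ : ℕ → ℝ} (h0 : ∀ i, 0 < m i) (h1 : ∀ i, m i ≤ 1) :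
    ∀ i : ℕ, Fn k φ (R1.FD F m σ i) (fun z v => TD F m σ (fun u => μ u v) i z) (Γ + 2 * i) := by
  intro i
  induction i with
  | zero =>
    simp only [Nat.cast_zero, mul_zero, add_zero]
    exact h
  | succ i ih =>
    have h2 := ih.layer (h0 i) (h1 i) (σ i)
    have h3 : Γ + 2 * ((i + 1 : ℕ) : ℝ) = Γ + 2 * i + 2 := by
      push_cast
      ring
    rw [h3]
    exact h2

end inst

section sk

variable {n : ℕ} {k x : ℝ}

lemma skmu_eq (s : ℝ) (z : Pair n → ℝ) (σ : Fin n → ℤˣ) : skmu k x s z σ =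
    H785.Ax x (√(1 - s)) (H332.lz k SkS) (fun u => mg k SkS u σ) z := by
  unfold skmu RR DD PP H785.Ax mg
  simp only [mul_one]
  rfl

/-- **The SK model is a cascade with two layers.** -/
theorem fn_sk (hx : 0 < x) (hx1 : x ≤ 1) (s : ℝ) :
    Fn k SkS (R1.uu x s (H332.lz k (SkS (n := n)))) (skmu k x s) 4 := by
  have h1 := (fn_lz k (SkS (n := n))).uu hx hx1 s
  have h2 : (2 : ℝ) + 2 = 4 := by norm_num
  rw [h2] at h1
  exact h1.congr fun z σ => (skmu_eq s z σ).symm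

theorem fn_skCS (hk : 0 < k) (hx : 0 < x) (hx1 : x ≤ 1) (s : ℝ) :
    Fn k SkS (R1.uu x s (skCS n hk hx hx1).F) ((skCS n hk hx hx1).mu s) 4 := fn_sk hx hx1 s

end sk

/-! ### the forms of the inequalities -/

section forms

variable {n : ℕ} {k x s Γ η : ℝ} {S : CS n k x}

/-- means do not see the averaged couplings -/
lemma AvP_in {κ : Type} [Fintype κ] [DecidableEq κ] {K : Type} (s : ℝ) (R : Finset κ)
    (f : K → (κ → ℝ) → ℝ) (G : (κ → ℝ) → (K → ℝ) → ℝ) (z : κ → ℝ) :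
    AvP s R (fun u => G u fun i => AvP s R (f i) u) z =
      AvP s R (fun u => G u fun i => AvP s R (f i) z) z := by
  unfold AvP
  refine integral_congr_ae (Filter.Eventually.of_forall fun g => ?_)
  simp only
  congr 1
  funext i
  exact AvP_sw (s := s) (R := R) (f i) z (√s • g)

lemma qP_one (s : ℝ) (z : Pair n → ℝ) : qP S 1 s z = qT S s z := by
  rw [qT_eq]
  unfold qP
  simp only [Matrix.one_apply, ite_mul, one_mul, zero_mul, Finset.sum_ite_eq, Finset.mem_univ,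
    if_true]

/-- **(I1)** -/
theorem i1 (hFn : Fn k SkS (uu x s S.F) (S.mu s) Γ) (hs : 0 < s) (R' : Finset (Pair n))
    (b : Fin n) (z : Pair n → ℝ) :
    AvP s (row b ∪ R') (fun u => ∑ i, ∑ j, (AvP s R' (fun u => S.H s b u i j) u -
      AvP s (row b ∪ R') (fun u => S.H s b u i j) u) ^ 2) z ≤
    36 * Γ ^ 6 * s ^ 2 * k ^ 4 * AvP s (row b ∪ R') (qT S s) z := by
  have h := i2 hFn hs one_pos 1 R' b z
  simp only [Matrix.one_apply, ite_mul, one_mul, zero_mul, Finset.sum_ite_eq, Finset.mem_univ,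
    if_true] at h
  refine h.trans (le_of_eq ?_)
  have e1 : (fun z => ((1 : ℝ)⁻¹) ^ 3 / 4 * qP S 1 s z + 3 * 1 / 4 * qT S s z) = qT S s := by
    funext z
    rw [qP_one]
    ring
  rw [e1]
  ring

/-- **(I2)**, mean at the bulk position. -/
theorem i2z (hFn : Fn k SkS (uu x s S.F) (S.mu s) Γ) (hs : 0 < s) (hη : 0 < η)
    (P : Matrix (Fin n) (Fin n) ℝ) (R' : Finset (Pair n)) (b : Fin n) (z : Pair n → ℝ) :
    AvP s (row b ∪ R') (fun u => ∑ i, ∑ j, (∑ l, P i l * (AvP s R' (fun u => S.H s b u l j) u -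
      AvP s (row b ∪ R') (fun u => S.H s b u l j) z)) ^ 2) z ≤
    s ^ 2 * (k ^ 4 * (6 * Γ ^ 3) ^ 2) * AvP s (row b ∪ R') (fun z =>
      (η⁻¹) ^ 3 / 4 * qP S P s z + 3 * η / 4 * qT S s z) z := by
  have h := i2 hFn hs hη P R' b z
  have h1 := AvP_in s (row b ∪ R') (fun (p : Fin n × Fin n) u => S.H s b u p.1 p.2)
    (fun u m => ∑ i, ∑ j, (∑ l, P i l * (AvP s R' (fun u => S.H s b u l j) u - m (l, j))) ^ 2) z
  simp only at h1
  rwa [h1] at h

/-- **(I1)**, mean at the bulk position. -/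
theorem i1z (hFn : Fn k SkS (uu x s S.F) (S.mu s) Γ) (hs : 0 < s) (R' : Finset (Pair n))
    (b : Fin n) (z : Pair n → ℝ) :
    AvP s (row b ∪ R') (fun u => ∑ i, ∑ j, (AvP s R' (fun u => S.H s b u i j) u -
      AvP s (row b ∪ R') (fun u => S.H s b u i j) z) ^ 2) z ≤
    36 * Γ ^ 6 * s ^ 2 * k ^ 4 * AvP s (row b ∪ R') (qT S s) z := by
  have h := i1 hFn hs R' b z
  have h1 := AvP_in s (row b ∪ R') (fun (p : Fin n × Fin n) u => S.H s b u p.1 p.2)
    (fun u m => ∑ i, ∑ j, (AvP s R' (fun u => S.H s b u i j) u - m (i, j)) ^ 2) z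
  simp only at h1
  rwa [h1] at h

/-- the bulk part of the projection -/
noncomputable def pqm (b b' : Fin n) (v : Fin n → ℝ) : Matrix (Fin n) (Fin n) ℝ :=
  fun i l => if (i = b ∨ i = b') ∨ (l = b ∨ l = b') then 0 else pj v i l

/-- the bulk part of a configuration -/
noncomputable def ubk (b b' : Fin n) (σ : Fin n → ℤˣ) : Fin n → ℝ :=
  fun i => if i = b ∨ i = b' then 0 else sp σ i

lemma pqm_u {b b' : Fin n} {v : Fin n → ℝ} (hb : v b = 0) (hb' : v b' = 0) (σ : Fin n → ℤˣ)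
    (i : Fin n) : ∑ l, pqm b b' v i l * sp σ l = (pj v *ᵥ ubk b b' σ) i := by
  have e1 : (pj v *ᵥ ubk b b' σ) i = ∑ l, pj v i l * ubk b b' σ l := rfl
  rw [e1]
  by_cases hi : i = b ∨ i = b'
  · have h1 : ∑ l, pqm b b' v i l * sp σ l = 0 :=
      Finset.sum_eq_zero fun l _ => by simp [pqm, hi]
    have h2 : ∑ l, pj v i l * ubk b b' σ l = 0 := by
      refine Finset.sum_eq_zero fun l _ => ?_
      have hv : v i = 0 := by
        rcases hi with rfl | rfl
        · exact hb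
        · exact hb'
      rw [H633.pj_apply, hv]
      by_cases hl : i = l
      · subst hl
        simp [ubk, hi]
      · simp [hl]
    rw [h1, h2]
  · refine Finset.sum_congr rfl fun l _ => ?_
    by_cases hl : l = b ∨ l = b'
    · simp [pqm, ubk, hl]
    · simp [pqm, ubk, hi, hl]

/-- The projected moments in the letters of helper633. -/
theorem qP_pqm {b b' : Fin n} {v : Fin n → ℝ} (hv : ∑ i, v i ^ 2 = 1) (hb : v b = 0)
    (hb' : v b' = 0) (s : ℝ) (z : Pair n → ℝ) : qP S (pqm b b' v) s z =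
      ∑ σ, ∑ τ, S.mu s z σ * S.mu s z τ * (ubk b b' σ ⬝ᵥ pj v *ᵥ ubk b b' τ) ^ 4 := by
  unfold qP
  refine Finset.sum_congr rfl fun σ _ => ?_
  rw [Finset.mul_sum]
  refine Finset.sum_congr rfl fun τ _ => ?_
  rw [← mul_assoc]
  congr 2
  simp only [pqm_u hb hb']
  show (pj v *ᵥ ubk b b' σ) ⬝ᵥ (pj v *ᵥ ubk b b' τ) = _
  rw [Matrix.dotProduct_mulVec, Matrix.vecMul_mulVec, H633.pj_T, H633.pj_mul_self hv,
    ← Matrix.mulVec_transpose, H633.pj_T, Matrix.dotProduct_mulVec, ← Matrix.mulVec_transpose,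
    H633.pj_T]

end forms

end Vale.Agent.P146.Cum
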