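import Vale.Agent.P146.H504.Cum7

/-!
Cumulant domination, part 8: one Gaussian layer at the second and at the fourth order.

For `0 < m ≤ 1` and `Fn k φ F μ Γ`, and any direction `w`,
`|d_w^4 (W m s F) - Ax m s F (d_w^4 F)| ≤ (22 Γ^2 + 60 Γ + 48) m k^4 ∑ v, mw v (w v)^4`.
-/

open MeasureTheory ProbabilityTheory

namespace Vale.Agent.P146.Cum

open Vale.Agent.P157.Lv Vale.Agent.P146.H425 Vale.Agent.P146.H325 Vale.Agent.P146.H785

set_option linter.unusedSectionVars false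

variable {ι X : Type} [Fintype ι] [DecidableEq ι] [Fintype X] [DecidableEq X]
  {k : ℝ} {φ : ι → X → ℝ} {F : (ι → ℝ) → ℝ} {μ : (ι → ℝ) → X → ℝ} {Γ : ℝ}

/-! ### chains of kernels -/

/-- the root law as a kernel -/
def rk (μ : (ι → ℝ) → X → ℝ) : (ι → ℝ) → (Lg1 → X) → ℝ := fun z x => μ z (x ())

/-- A chain of derivative kernels of length five with the constants of domination. -/
structure Chn (k : ℝ) (φ : ι → X → ℝ) (F : (ι → ℝ) → ℝ) (μ : (ι → ℝ) → X → ℝ)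
    (T2 : (ι → ℝ) → (Lg2 → X) → ℝ) (T3 : (ι → ℝ) → (Lg3 → X) → ℝ)
    (T4 : (ι → ℝ) → (Lg4 → X) → ℝ) (T5 : (ι → ℝ) → (Option Lg4 → X) → ℝ)
    (c2 c3 c4 c5 : ℝ) : Prop where
  pd : ∀ e, PD e F (fun z => k * ∑ v, μ z v * φ e v)
  pk : Pk μ 1 (rk μ)
  d2 : DK k φ (rk μ) T2
  d3 : DK k φ T2 T3
  d4 : DK k φ T3 T4
  d5 : DK k φ T4 T5
  m2 : Dm μ c2 T2
  m3 : Dm μ c3 T3
  m4 : Dm μ c4 T4
  m5 : Dm μ c5 T5

lemma ev_rk (g : X → ℝ) (z : ι → ℝ) : ev (rk μ) (fun _ => g) z = ∑ v, μ z v * g v := by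
  unfold ev rk
  have h1 : ∀ x : Lg1 → X, ∏ a : Lg1, (fun _ : Lg1 => g) a (x a) = g (x ()) := by
    intro x
    rw [Fintype.prod_unique]
  simp only [h1]
  exact sum_unit (fun v => μ z v * g v)

namespace Chn

variable {T2 : (ι → ℝ) → (Lg2 → X) → ℝ} {T3 : (ι → ℝ) → (Lg3 → X) → ℝ}
    {T4 : (ι → ℝ) → (Lg4 → X) → ℝ} {T5 : (ι → ℝ) → (Option Lg4 → X) → ℝ}
    {c2 c3 c4 c5 : ℝ}

lemma nn (h : Chn k φ F μ T2 T3 T4 T5 c2 c3 c4 c5) (z : ι → ℝ) (v : X) : 0 ≤ μ z v :=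
  h.pk.nn z fun _ => v

lemma w1 (h : Chn k φ F μ T2 T3 T4 T5 c2 c3 c4 c5) (w : ι → ℝ) :
    Dw w F fun z => k * ∑ v, μ z v * fw φ w v := by
  have h1 := dir_gen (T := rk μ) (G := fun e _ => φ e) (fun e => by
    refine (h.pd e).congr fun z => ?_
    rw [ev_rk]) h.pk.dm h.d2 h.m2 w
  refine h1.congr fun z => ?_
  simp only [ev_rk, fw, Finset.mul_sum]
  rw [Finset.sum_comm]
  exact Finset.sum_congr rfl fun e _ => Finset.sum_congr rfl fun v _ => by ring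

lemma w2 (h : Chn k φ F μ T2 T3 T4 T5 c2 c3 c4 c5) (w : ι → ℝ) :
    Dw w (fun z => k * ∑ v, μ z v * fw φ w v) fun z => k ^ 2 * ev T2 (fun _ => fw φ w) z := by
  have h1 := (dir_ev h.d2 h.m2 h.d3 h.m3 w).const_mul k
  have e1 : (fun z => k * ∑ v, μ z v * fw φ w v) = fun z => k * ev (rk μ) (fun _ => fw φ w) z := by
    funext z
    rw [ev_rk]
  rw [e1]
  exact h1.congr fun z => by ring

lemma w3 (h : Chn k φ F μ T2 T3 T4 T5 c2 c3 c4 c5) (w : ι → ℝ) :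
    Dw w (fun z => k ^ 2 * ev T2 (fun _ => fw φ w) z)
      fun z => k ^ 3 * ev T3 (fun _ => fw φ w) z := by
  have h1 := (dir_ev h.d3 h.m3 h.d4 h.m4 w).const_mul (k ^ 2)
  exact h1.congr fun z => by ring

lemma w4 (h : Chn k φ F μ T2 T3 T4 T5 c2 c3 c4 c5) (w : ι → ℝ) :
    Dw w (fun z => k ^ 3 * ev T3 (fun _ => fw φ w) z)
      fun z => k ^ 4 * ev T4 (fun _ => fw φ w) z := by
  have h1 := (dir_ev h.d4 h.m4 h.d5 h.m5 w).const_mul (k ^ 3)
  exact h1.congr fun z => by ring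

/-- the second derivative in a direction -/
lemma it2 (h : Chn k φ F μ T2 T3 T4 T5 c2 c3 c4 c5) (w z : ι → ℝ) :
    iteratedDeriv 2 (fun t : ℝ => F (z + t • w)) 0 = k ^ 2 * ev T2 (fun _ => fw φ w) z := by
  rw [(h.w1 w).it2 (h.w2 w)]
  simp only [zero_smul, add_zero]

/-- the fourth derivative in a direction -/
lemma it4 (h : Chn k φ F μ T2 T3 T4 T5 c2 c3 c4 c5) (w z : ι → ℝ) :
    iteratedDeriv 4 (fun t : ℝ => F (z + t • w)) 0 = k ^ 4 * ev T4 (fun _ => fw φ w) z := by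
  rw [(h.w1 w).it4 (h.w2 w) (h.w3 w) (h.w4 w)]
  simp only [zero_smul, add_zero]

end Chn

/-! ### the layer -/

section layer

variable {m s : ℝ}

/-- the covariance part of the derivative kernel of an averaged kernel -/
noncomputable def Rk {α : Type} (m s : ℝ) (F : (ι → ℝ) → ℝ) (μ : (ι → ℝ) → X → ℝ)
    (T : (ι → ℝ) → (α → X) → ℝ) : (ι → ℝ) → (Option α → X) → ℝ := fun z x =>
  avk m s F (tens (eU α) T (rk μ)) z x + (-1) * tens (eU α) (avk m s F T) (avk m s F (rk μ)) z x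

variable {α : Type} [Fintype α] [DecidableEq α]

lemma good_Rk (h : Fn k φ F μ Γ) (h0 : 0 < m) (h1 : m ≤ 1) (s : ℝ) [Nonempty α] {d : ℕ} {c : ℝ}
    {T : (ι → ℝ) → (α → X) → ℝ} (hT : Good k φ μ Γ d α c T) :
    Good k φ (mw m s F μ) (Γ + 2) d (Option α) (2 * c) (Rk m s F μ T) := by
  have hΓ : 0 ≤ Γ + 2 := by have := h.Γ0; linarith
  have e2 := good_avk h h0 h1 s d (Option α) _ _ (hT.tens h.Γ0 (eU α) (h.good d))
  have e3 := ((good_avk h h0 h1 s d α c T hT).tens hΓ (eU α)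
    (good_avk h h0 h1 s d Unit 1 _ (h.good d))).smul (-1)
  refine (e2.add e3).mono hΓ ?_
  rw [abs_neg, abs_one]
  linarith

lemma DK.addm {T S : (ι → ℝ) → (α → X) → ℝ} {T' S' : (ι → ℝ) → (Option α → X) → ℝ}
    (h : DK k φ T T') (h' : DK k φ S S') (m : ℝ) :
    DK k φ (fun z x => T z x + m * S z x) (fun z x => T' z x + m * S' z x) := fun e x => by
  refine ((h e x).add ((h' e x).const_mul m)).congr fun z => ?_
  have e1 : ∑ y, (T' z (ext x y) + m * S' z (ext x y)) * φ e y =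
      ∑ y, T' z (ext x y) * φ e y + m * ∑ y, S' z (ext x y) * φ e y := by
    rw [Finset.mul_sum, ← Finset.sum_add_distrib]
    exact Finset.sum_congr rfl fun y _ => by ring
  rw [e1]
  ring

lemma DK.congr {T S : (ι → ℝ) → (α → X) → ℝ} {T' S' : (ι → ℝ) → (Option α → X) → ℝ}
    (h : DK k φ T T') (e1 : ∀ z x, S z x = T z x) (e2 : ∀ z x, S' z x = T' z x) :
    DK k φ S S' := by
  have h1 : S = T := funext fun z => funext fun x => e1 z x
  have h2 : S' = T' := funext fun z => funext fun x => e2 z x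
  rw [h1, h2]
  exact h

/-- the derivative kernel of an averaged kernel -/
lemma dk_avk (h : Fn k φ F μ Γ) (m s : ℝ) {c c' : ℝ} {T : (ι → ℝ) → (α → X) → ℝ}
    {T' : (ι → ℝ) → (Option α → X) → ℝ} (hT : Dm μ c T) (hD : DK k φ T T')
    (hT' : Dm μ c' T') :
    DK k φ (avk m s F T) (fun z x => avk m s F T' z x + m * Rk m s F μ T z x) := by
  obtain ⟨B, hB, hL⟩ := h.lip
  have he := fun x => hT.eg x
  have he' := fun x => hT'.eg x
  intro e x
  have i1 : ∀ y, EG fun u => T' u (ext x y) * φ e y := fun y =>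
    (he' (ext x y)).mul (EG.const _)
  have i2 : EG fun z => k * ∑ v, μ z v * φ e v :=
    (EG.sum _ fun v _ => (h.eg v).mul (EG.const _)).const_mul k
  have hp := pd_Ax (x := m) (s := s) hL hB (h.pd e) i2 (he x)
    ((EG.sum _ fun y _ => i1 y).const_mul k) (hD e x)
  refine hp.congr fun z => ?_
  have j1 : Ax m s F (fun z => k * ∑ y, T' z (ext x y) * φ e y) z =
      k * ∑ y, Cum.avk m s F T' z (ext x y) * φ e y := by
    rw [Ax_const_mul, Ax_sum hL hB Finset.univ (fun y _ => i1 y)]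
    congr 1
    refine Finset.sum_congr rfl fun y _ => ?_
    unfold Cum.avk
    rw [mul_comm, ← Ax_const_mul]
    congr 1
    funext u
    ring
  have j2 : Ax m s F (fun z => k * ∑ v, μ z v * φ e v) z =
      k * ∑ y, mw m s F μ z y * φ e y := by
    rw [Ax_const_mul, Ax_sum hL hB Finset.univ (fun v _ => (h.eg v).mul (EG.const _))]
    congr 1
    refine Finset.sum_congr rfl fun y _ => ?_
    unfold mw
    rw [mul_comm (Ax m s F (fun u => μ u y) z), ← Ax_const_mul]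
    congr 1
    funext u
    ring
  have j3 : Ax m s F (fun u => T u x * (k * ∑ v, μ u v * φ e v)) z =
      k * ∑ y, Cum.avk m s F (Cum.tens (eU α) T (rk μ)) z (ext x y) * φ e y := by
    have e1 : (fun u => T u x * (k * ∑ v, μ u v * φ e v)) =
        fun u => k * ∑ v, φ e v * (T u x * μ u v) := by
      funext u
      rw [mul_left_comm, Finset.mul_sum]
      congr 1
      exact Finset.sum_congr rfl fun v _ => by ring
    rw [e1, Ax_const_mul, Ax_sum hL hB Finset.univ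
      (fun v _ => ((he x).mul (h.eg v)).const_mul _)]
    congr 1
    refine Finset.sum_congr rfl fun y _ => ?_
    rw [Ax_const_mul, mul_comm]
    rfl
  have j4 : ∀ y, Cum.tens (eU α) (Cum.avk m s F T) (Cum.avk m s F (rk μ)) z (ext x y) =
        Cum.avk m s F T z x * mw m s F μ z y := fun y => rfl
  rw [j1, j2, j3]
  unfold Rk
  simp only [j4]
  have j5 : Ax m s F (fun z => T z x) z = Cum.avk m s F T z x := rfl
  rw [j5]
  simp only [Finset.mul_sum, ← Finset.sum_add_distrib, ← Finset.sum_sub_distrib]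
  exact Finset.sum_congr rfl fun y _ => by ring

/-- **The chain of a layer.** -/
theorem Fn.chn_layer (h : Fn k φ F μ Γ) (h0 : 0 < m) (h1 : m ≤ 1) (s : ℝ) :
    ∃ (T2 : (ι → ℝ) → (Lg2 → X) → ℝ) (T3 : (ι → ℝ) → (Lg3 → X) → ℝ)
      (T4 : (ι → ℝ) → (Lg4 → X) → ℝ) (T5 : (ι → ℝ) → (Option Lg4 → X) → ℝ)
      (R2 : (ι → ℝ) → (Lg2 → X) → ℝ) (R3 : (ι → ℝ) → (Lg3 → X) → ℝ)
      (R4 : (ι → ℝ) → (Lg4 → X) → ℝ) (R5 : (ι → ℝ) → (Option Lg4 → X) → ℝ) (c5 : ℝ),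
      Chn k φ F μ T2 T3 T4 T5 Γ (2 * Γ ^ 2) (6 * Γ ^ 3) (24 * Γ ^ 4) ∧
      Chn k φ (W m s F) (mw m s F μ) (fun z x => avk m s F T2 z x + m * R2 z x)
        (fun z x => avk m s F T3 z x + m * R3 z x) (fun z x => avk m s F T4 z x + m * R4 z x)
        (fun z x => avk m s F T5 z x + m * R5 z x) (Γ + 2) (2 * Γ ^ 2 + (6 * Γ + 8))
        (6 * Γ ^ 3 + (22 * Γ ^ 2 + 60 * Γ + 48)) c5 ∧
      Dm (mw m s F μ) 2 R2 ∧ Dm (mw m s F μ) (6 * Γ + 8) R3 ∧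
      Dm (mw m s F μ) (22 * Γ ^ 2 + 60 * Γ + 48) R4 := by
  have hΓ := h.Γ0
  have hΓ2 : 0 ≤ Γ + 2 := by linarith
  obtain ⟨B, hB, hL⟩ := h.lip
  obtain ⟨-, T2, d2, g2⟩ := h.good 4
  obtain ⟨n2, T3, d3, g3⟩ := id g2
  obtain ⟨n3, T4, d4, g4⟩ := id g3
  obtain ⟨n4, T5, d5, g5⟩ := id g4
  have G2 : Good k φ μ Γ 3 Lg2 Γ T2 := g2.mono hΓ (le_of_eq (by simp))
  have G3 : Good k φ μ Γ 2 Lg3 (2 * Γ ^ 2) T3 := g3.mono hΓ (le_of_eq (by simp; ring))
  have G4 : Good k φ μ Γ 1 Lg4 (6 * Γ ^ 3) T4 := g4.mono hΓ (le_of_eq (by simp; ring))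
  have G5 : Dm μ (24 * Γ ^ 4) T5 := Dm.mono g5 (le_of_eq (by simp; ring))
  have gR2 := good_Rk h h0 h1 s (h.good 3)
  obtain ⟨nR2, R2', dR2, gR2'⟩ := id gR2
  have gR2'' : Good k φ (mw m s F μ) (Γ + 2) 2 Lg3 (4 * (Γ + 2)) R2' :=
    gR2'.mono hΓ2 (le_of_eq (by simp; ring))
  have gR3 := (good_Rk h h0 h1 s (G2.down hΓ)).add gR2''
  have gR3a : Good k φ (mw m s F μ) (Γ + 2) 2 Lg3 (6 * Γ + 8)
      (fun z x => Rk m s F μ T2 z x + R2' z x) := gR3.mono hΓ2 (le_of_eq (by ring))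
  obtain ⟨nR3, R3', dR3, gR3'⟩ := id gR3a
  have gR3'' : Good k φ (mw m s F μ) (Γ + 2) 1 Lg4 (3 * ((6 * Γ + 8) * (Γ + 2))) R3' :=
    gR3'.mono hΓ2 (le_of_eq (by simp; ring))
  have gR4 := (good_Rk h h0 h1 s (G3.down hΓ)).add gR3''
  have gR4a : Good k φ (mw m s F μ) (Γ + 2) 1 Lg4 (22 * Γ ^ 2 + 60 * Γ + 48)
      (fun z x => Rk m s F μ T3 z x + R3' z x) := gR4.mono hΓ2 (le_of_eq (by ring))
  obtain ⟨nR4, R4', dR4, gR4'⟩ := id gR4a
  have gR5 := (good_Rk h h0 h1 s (G4.down hΓ)).dm.add gR4'.dm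
  have hm1 : |m| ≤ 1 := by rw [abs_of_pos h0]; exact h1
  have hsm : ∀ {β : Type} [Fintype β] [DecidableEq β] {c : ℝ} {R : (ι → ℝ) → (β → X) → ℝ},
      Dm (mw m s F μ) c R → Dm (mw m s F μ) c (fun z x => m * R z x) := fun hR =>
    (hR.smul m).mono (by nlinarith [hR.c0])
  refine ⟨T2, T3, T4, T5, Rk m s F μ (rk μ), fun z x => Rk m s F μ T2 z x + R2' z x,
    fun z x => Rk m s F μ T3 z x + R3' z x, fun z x => Rk m s F μ T4 z x + R4' z x,
    24 * Γ ^ 4 + (2 * (6 * Γ ^ 3) + (22 * Γ ^ 2 + 60 * Γ + 48) *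
      ((Γ + 2) * (Fintype.card Lg4 : ℝ))),
    ⟨h.pd, h.pk, d2, d3, d4, d5, G2.dm, G3.dm, G4.dm, G5⟩,
    ⟨(h.layer h0 h1 s).pd, (h.layer h0 h1 s).pk, ?_, ?_, ?_, ?_, ?_, ?_, ?_, ?_⟩, ?_, ?_, ?_⟩
  · exact dk_avk h m s (h.good 0).dm d2 G2.dm
  · refine ((dk_avk h m s G2.dm d3 G3.dm).addm dR2 m).congr (fun z x => rfl) fun z x => ?_
    ring
  · refine ((dk_avk h m s G3.dm d4 G4.dm).addm dR3 m).congr (fun z x => rfl) fun z x => ?_
    ring
  · refine ((dk_avk h m s G4.dm d5 G5).addm dR4 m).congr (fun z x => rfl) fun z x => ?_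
    ring
  · exact (G2.dm.avk hL hB h.eg m s).add (hsm (gR2.dm.mono (le_of_eq (by ring))))
  · exact (G3.dm.avk hL hB h.eg m s).add (hsm gR3a.dm)
  · exact (G4.dm.avk hL hB h.eg m s).add (hsm gR4a.dm)
  · exact (G5.avk hL hB h.eg m s).add (hsm gR5)
  · exact gR2.dm.mono (le_of_eq (by ring))
  · exact gR3a.dm
  · exact gR4a.dm

lemma Ax_ev (h : Fn k φ F μ Γ) (m s : ℝ) {c : ℝ} {T : (ι → ℝ) → (α → X) → ℝ} (hT : Dm μ c T)
    (g : α → X → ℝ) (z : ι → ℝ) : Ax m s F (ev T g) z = ev (avk m s F T) g z := by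
  obtain ⟨B, hB, hL⟩ := h.lip
  have e1 : ev T g = fun u => ∑ x, (∏ a, g a (x a)) * T u x := by
    funext u
    exact Finset.sum_congr rfl fun x _ => mul_comm _ _
  rw [e1, Ax_sum hL hB Finset.univ (fun x _ => (hT.eg x).const_mul _)]
  unfold ev avk
  refine Finset.sum_congr rfl fun x _ => ?_
  rw [Ax_const_mul, mul_comm]

lemma ev_addm {T R : (ι → ℝ) → (α → X) → ℝ} (m : ℝ) (g : α → X → ℝ) (z : ι → ℝ) :
    ev (fun z x => T z x + m * R z x) g z = ev T g z + m * ev R g z := by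
  unfold ev
  rw [Finset.mul_sum, ← Finset.sum_add_distrib]
  exact Finset.sum_congr rfl fun x _ => by ring

/-- **One Gaussian layer at the fourth order.** -/
theorem r1_step (h : Fn k φ F μ Γ) (h0 : 0 < m) (h1 : m ≤ 1) (s : ℝ) (w z : ι → ℝ) :
    |iteratedDeriv 4 (fun t : ℝ => W m s F (z + t • w)) 0 -
      Ax m s F (fun y => iteratedDeriv 4 (fun t : ℝ => F (y + t • w)) 0) z| ≤
    (22 * Γ ^ 2 + 60 * Γ + 48) * m * k ^ 4 *
      ∑ v, mw m s F μ z v * (∑ e, w e * φ e v) ^ 4 := by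
  obtain ⟨T2, T3, T4, T5, R2, R3, R4, R5, c5, hF, hW, -, -, hR4⟩ := h.chn_layer h0 h1 s
  have e1 : (fun y => iteratedDeriv 4 (fun t : ℝ => F (y + t • w)) 0) =
      fun y => k ^ 4 * ev T4 (fun _ => fw φ w) y := funext fun y => hF.it4 w y
  rw [e1, Ax_const_mul, Ax_ev h m s hF.m4, hW.it4 w z, ev_addm]
  have e2 : k ^ 4 * (ev (avk m s F T4) (fun _ => fw φ w) z + m * ev R4 (fun _ => fw φ w) z) -
      k ^ 4 * ev (avk m s F T4) (fun _ => fw φ w) z =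
      m * k ^ 4 * ev R4 (fun _ => fw φ w) z := by ring
  rw [e2, abs_mul, abs_of_nonneg (by positivity : 0 ≤ m * k ^ 4)]
  have h2 := ev_le_pow hR4 hW.nn (fw φ w) z
  have hc4 : Fintype.card Lg4 = 4 := by simp
  rw [hc4] at h2
  have e3 : ∀ v, |fw φ w v| ^ 4 = (∑ e, w e * φ e v) ^ 4 := fun v =>
    Even.pow_abs (by decide) _
  simp only [e3] at h2
  calc m * k ^ 4 * |ev R4 (fun _ => fw φ w) z| ≤ m * k ^ 4 * ((22 * Γ ^ 2 + 60 * Γ + 48) *
        ∑ v, mw m s F μ z v * (∑ e, w e * φ e v) ^ 4) :=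
        mul_le_mul_of_nonneg_left h2 (by positivity)
    _ = _ := by ring

/-- **One Gaussian layer at the second order.** -/
theorem r1_two (h : Fn k φ F μ Γ) (h0 : 0 < m) (h1 : m ≤ 1) (s : ℝ) (w z : ι → ℝ) :
    |iteratedDeriv 2 (fun t : ℝ => W m s F (z + t • w)) 0 -
      Ax m s F (fun y => iteratedDeriv 2 (fun t : ℝ => F (y + t • w)) 0) z| ≤
    2 * m * k ^ 2 * ∑ v, mw m s F μ z v * (∑ e, w e * φ e v) ^ 2 := by
  obtain ⟨T2, T3, T4, T5, R2, R3, R4, R5, c5, hF, hW, hR2, -, -⟩ := h.chn_layer h0 h1 s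
  have e1 : (fun y => iteratedDeriv 2 (fun t : ℝ => F (y + t • w)) 0) =
      fun y => k ^ 2 * ev T2 (fun _ => fw φ w) y := funext fun y => hF.it2 w y
  rw [e1, Ax_const_mul, Ax_ev h m s hF.m2, hW.it2 w z, ev_addm]
  have e2 : k ^ 2 * (ev (avk m s F T2) (fun _ => fw φ w) z + m * ev R2 (fun _ => fw φ w) z) -
      k ^ 2 * ev (avk m s F T2) (fun _ => fw φ w) z =
      m * k ^ 2 * ev R2 (fun _ => fw φ w) z := by ring
  rw [e2, abs_mul, abs_of_nonneg (by positivity : 0 ≤ m * k ^ 2)]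
  have h2 := ev_le_pow hR2 hW.nn (fw φ w) z
  have hc2 : Fintype.card Lg2 = 2 := by simp
  rw [hc2] at h2
  have e3 : ∀ v, |fw φ w v| ^ 2 = (∑ e, w e * φ e v) ^ 2 := fun v =>
    Even.pow_abs (by decide) _
  simp only [e3] at h2
  calc m * k ^ 2 * |ev R2 (fun _ => fw φ w) z| ≤ m * k ^ 2 * (2 *
        ∑ v, mw m s F μ z v * (∑ e, w e * φ e v) ^ 2) :=
        mul_le_mul_of_nonneg_left h2 (by positivity)
    _ = _ := by ring

end layer

end Vale.Agent.P146.Cum
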