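import Vale.Agent.P146.H504.Cum6
import Vale.Agent.P146.H504.Cum8
import Vale.Agent.P146.H722.Kap7
import Vale.Agent.P146.H713.DeepCS

/-!
Cumulant domination, part 9: the root law of a position system; the deep systems; the fourth
derivative of the value function along a line of a row, averaged over two rows.
-/

open MeasureTheory ProbabilityTheory Matrix

namespace Vale.Agent.P146.Cum

open Vale.Agent.P157.Lv Vale.Agent.P146.H425 Vale.Agent.P146.H325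
  Vale.Agent.P146.H712 Vale.Agent.P146.R1 Vale.Agent.P146.R1C Vale.Agent.P146.R1S
open Vale.Agent.P146.H722 (nuv)

set_option linter.unusedSectionVars false

/-! ### the layers below `J` -/

section lay

variable {ι X : Type} [Fintype ι] [DecidableEq ι] [Fintype X] [DecidableEq X]

/-- The first `i` layers: only the exponents of these layers matter. -/
theorem Fn.FDl {k Γ : ℝ} {φ : ι → X → ℝ} {F : (ι → ℝ) → ℝ} {μ : (ι → ℝ) → X → ℝ}
    (h : Fn k φ F μ Γ) {m σ : ℕ → ℝ} :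
    ∀ i : ℕ, (∀ l < i, 0 < m l) → (∀ l < i, m l ≤ 1) →
      Fn k φ (R1.FD F m σ i) (fun z v => TD F m σ (fun u => μ u v) i z) (Γ + 2 * i) := by
  intro i
  induction i with
  | zero =>
    intro _ _
    simp only [Nat.cast_zero, mul_zero, add_zero]
    exact h
  | succ i ih =>
    intro h0 h1
    have h2 := (ih (fun l hl => h0 l (by omega)) (fun l hl => h1 l (by omega))).layer
      (h0 i (by omega)) (h1 i (by omega)) (σ i)
    have h3 : Γ + 2 * ((i + 1 : ℕ) : ℝ) = Γ + 2 * i + 2 := by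
      push_cast
      ring
    rw [h3]
    exact h2

end lay

variable {n : ℕ} {k x Γ : ℝ}

/-! ### systems with a root law -/

/-- The root law of a position system at the time `1`. -/
structure Root (S : CS n k x) (μ1 : (Pair n → ℝ) → (Fin n → ℤˣ) → ℝ) (Γ : ℝ) : Prop where
  fn : Fn k SkS S.F μ1 Γ
  mu_eq : ∀ s z σ, S.mu s z σ = H785.Ax x (√(1 - s)) S.F (fun u => μ1 u σ) z

variable {S : CS n k x} {μ1 : (Pair n → ℝ) → (Fin n → ℤˣ) → ℝ}

theorem Root.fnu (h : Root S μ1 Γ) (s : ℝ) : Fn k SkS (R1.uu x s S.F) (S.mu s) (Γ + 2) :=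
  (h.fn.uu S.x0 S.x1 s).congr fun z σ => (h.mu_eq s z σ).symm

/-- the SK model -/
theorem root_sk (hk : 0 < k) (hx : 0 < x) (hx1 : x ≤ 1) :
    Root (skCS n hk hx hx1) (mg k SkS) 2 :=
  ⟨fn_lz k SkS, fun s z σ => skmu_eq s z σ⟩

/-- **the deep systems** -/
theorem root_deep (hk : 0 < k) {m : ℕ → ℝ} (σ : ℕ → ℝ) {J : ℕ} (hE : Exs m J x) :
    Root (deepCS n hk σ hE) (fun u τ => TD (H332.lz k SkS) m σ (fun u => mg k SkS u τ) J u)
      (2 + 2 * J) :=
  ⟨(fn_lz k SkS).FDl J (hE.pos' le_rfl) hE.le, fun _ _ _ => rfl⟩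

/-- **hFn for the deep systems.** -/
theorem fn_deepCS (hk : 0 < k) {m : ℕ → ℝ} (σ : ℕ → ℝ) {J : ℕ} (hE : Exs m J x) (s : ℝ) :
    Fn k SkS (R1.uu x s (deepCS n hk σ hE).F) ((deepCS n hk σ hE).mu s) (4 + 2 * J) := by
  have h1 := (root_deep (n := n) hk σ hE).fnu s
  have h2 : (2 : ℝ) + 2 * J + 2 = 4 + 2 * J := by ring
  rw [h2] at h1
  exact h1

/-! ### lines in a row -/

lemma fw_nuv {b : Fin n} {v : Fin n → ℝ} (hb : v b = 0) (σ : Fin n → ℤˣ) :
    fw SkS (nuv b v) σ = sp σ b * lin v σ := by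
  have h1 := H722.Xd_nuv (b := b) (v := v) hb σ
  have h2 : fw SkS (nuv b v) σ = H722.Xd SkS (row b) (nuv b v) σ := by
    unfold fw H722.Xd
    exact (Finset.sum_subset (Finset.subset_univ (row b)) fun e _ he => by
      rw [nuv, if_neg he, zero_mul]).symm
  rw [h2, h1]
  unfold lin pr
  rw [Finset.mul_sum]
  exact Finset.sum_congr rfl fun i _ => by ring

lemma fw_nuv_four {b : Fin n} {v : Fin n → ℝ} (hb : v b = 0) (σ : Fin n → ℤˣ) :
    (∑ e, nuv b v e * SkS e σ) ^ 4 = lin v σ ^ 4 := by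
  have h1 := fw_nuv hb σ
  unfold fw at h1
  rw [h1, mul_pow]
  have h2 : sp σ b ^ 4 = 1 := by
    have := sp_mul_self σ b
    calc sp σ b ^ 4 = (sp σ b * sp σ b) ^ 2 := by ring
      _ = 1 := by rw [this]; ring
  rw [h2, one_mul]

/-- the fourth moment through the variance of the square -/
lemma four_le {X : Type} [Fintype X] {p f : X → ℝ} (hp : ∀ y, 0 ≤ p y) (h1 : ∑ y, p y = 1)
    (lam : ℝ) :
    ∑ y, p y * f y ^ 4 ≤ 2 * lam ^ 2 + 2 * ∑ y, p y * (f y ^ 2 - lam) ^ 2 := by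
  have h2 : ∀ y, p y * f y ^ 4 ≤ p y * (2 * lam ^ 2) + 2 * (p y * (f y ^ 2 - lam) ^ 2) := by
    intro y
    have h3 : f y ^ 4 ≤ 2 * lam ^ 2 + 2 * (f y ^ 2 - lam) ^ 2 := by
      nlinarith [sq_nonneg (f y ^ 2 - 2 * lam)]
    have := mul_le_mul_of_nonneg_left h3 (hp y)
    linarith
  refine (Finset.sum_le_sum fun y _ => h2 y).trans (le_of_eq ?_)
  rw [Finset.sum_add_distrib, ← Finset.sum_mul, h1, one_mul, ← Finset.mul_sum]

/-- the fourth derivative of the value function against the one of the functional -/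
theorem k2_at (h : Root S μ1 Γ) {b : Fin n} {v : Fin n → ℝ} (hb : v b = 0) (s : ℝ)
    (z : Pair n → ℝ) :
    |iteratedDeriv 4 (fun t : ℝ => uu x s S.F (z + t • nuv b v)) 0 -
      H785.Ax x (√(1 - s)) S.F
        (fun y => iteratedDeriv 4 (fun t : ℝ => S.F (y + t • nuv b v)) 0) z| ≤
      (22 * Γ ^ 2 + 60 * Γ + 48) * x * k ^ 4 * ∑ σ, S.mu s z σ * lin v σ ^ 4 := by
  have h1 := r1_step h.fn S.x0 S.x1 (√(1 - s)) (nuv b v) z
  have h2 : ∑ σ, mw x (√(1 - s)) S.F μ1 z σ * (∑ e, nuv b v e * SkS e σ) ^ 4 =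
      ∑ σ, S.mu s z σ * lin v σ ^ 4 :=
    Finset.sum_congr rfl fun σ _ => by rw [fw_nuv_four hb, h.mu_eq]; rfl
  rw [h2] at h1
  exact h1

/-- the derivatives along a line are of exponential growth -/
lemma Fn.eg_it4 {ι X : Type} [Fintype ι] [DecidableEq ι] [Fintype X] [DecidableEq X]
    {φ : ι → X → ℝ} {F : (ι → ℝ) → ℝ} {μ : (ι → ℝ) → X → ℝ} (h : Fn k φ F μ Γ) (w : ι → ℝ) :
    EG fun z => iteratedDeriv 4 (fun t : ℝ => F (z + t • w)) 0 := by
  obtain ⟨T2, T3, T4, T5, R2, R3, R4, R5, c5, hF, -⟩ := h.chn_layer one_pos le_rfl 0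
  have e1 : (fun z => iteratedDeriv 4 (fun t : ℝ => F (z + t • w)) 0) =
      fun z => k ^ 4 * ev T4 (fun _ => fw φ w) z := funext fun z => hF.it4 w z
  rw [e1]
  exact (hF.m4.eg_ev _).const_mul _

lemma Fn.eg_Ax_it4 {ι X : Type} [Fintype ι] [DecidableEq ι] [Fintype X] [DecidableEq X]
    {φ : ι → X → ℝ} {F : (ι → ℝ) → ℝ} {μ : (ι → ℝ) → X → ℝ} (h : Fn k φ F μ Γ) (m s : ℝ)
    (w : ι → ℝ) :
    EG (H785.Ax m s F fun y => iteratedDeriv 4 (fun t : ℝ => F (y + t • w)) 0) := by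
  obtain ⟨B, hB, hL⟩ := h.lip
  obtain ⟨T2, T3, T4, T5, R2, R3, R4, R5, c5, hF, -⟩ := h.chn_layer one_pos le_rfl 0
  have e1 : (fun z => iteratedDeriv 4 (fun t : ℝ => F (z + t • w)) 0) =
      fun z => k ^ 4 * ev T4 (fun _ => fw φ w) z := funext fun z => hF.it4 w z
  have e2 : (H785.Ax m s F fun y => iteratedDeriv 4 (fun t : ℝ => F (y + t • w)) 0) =
      fun z => k ^ 4 * ev (avk m s F T4) (fun _ => fw φ w) z := by
    funext z
    rw [e1, H785.Ax_const_mul, Ax_ev h m s hF.m4]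
  rw [e2]
  exact ((hF.m4.avk hL hB h.eg m s).eg_ev _).const_mul _

/-- **(K2)** -/
theorem k2 (h : Root S μ1 Γ) {b : Fin n} {v : Fin n → ℝ} (hb : v b = 0) (s t : ℝ)
    (R : Finset (Pair n)) (lam : ℝ) (z : Pair n → ℝ) :
    |AvP t R (fun u => iteratedDeriv 4 (fun r : ℝ => uu x s S.F (u + r • nuv b v)) 0) z -
      AvP t R (H785.Ax x (√(1 - s)) S.F
        (fun y => iteratedDeriv 4 (fun r : ℝ => S.F (y + r • nuv b v)) 0)) z| ≤
      (22 * Γ ^ 2 + 60 * Γ + 48) * x * k ^ 4 * (2 * lam ^ 2 +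
        2 * AvP t R (fun u => ∑ σ, S.mu s u σ * (lin v σ ^ 2 - lam) ^ 2) z) := by
  have hΓ := h.fn.Γ0
  have hx := S.x0.le
  have g1 : EG fun u => iteratedDeriv 4 (fun r : ℝ => uu x s S.F (u + r • nuv b v)) 0 :=
    (h.fnu s).eg_it4 (nuv b v)
  have g2 := h.fn.eg_Ax_it4 x (√(1 - s)) (nuv b v)
  have g3 : EG fun u => ∑ σ, S.mu s u σ * (lin v σ ^ 2 - lam) ^ 2 :=
    EG.sum _ fun σ _ => (S.eg_mu s σ).mul (EG.const _)
  set K : ℝ := (22 * Γ ^ 2 + 60 * Γ + 48) * x * k ^ 4 with hK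
  have hK0 : 0 ≤ K := by positivity
  have g4 : EG fun u => K * (2 * lam ^ 2 + 2 * ∑ σ, S.mu s u σ * (lin v σ ^ 2 - lam) ^ 2) :=
    ((EG.const _).add (g3.const_mul 2)).const_mul K
  have h2 : ∀ u, |iteratedDeriv 4 (fun r : ℝ => uu x s S.F (u + r • nuv b v)) 0 -
      H785.Ax x (√(1 - s)) S.F
        (fun y => iteratedDeriv 4 (fun r : ℝ => S.F (y + r • nuv b v)) 0) u| ≤
      K * (2 * lam ^ 2 + 2 * ∑ σ, S.mu s u σ * (lin v σ ^ 2 - lam) ^ 2) := fun u =>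
    (k2_at h hb s u).trans (mul_le_mul_of_nonneg_left
      (four_le (S.mu0 s u) (S.mu1 s u) lam) hK0)
  have e1 : AvP t R (fun u => K * (2 * lam ^ 2 + 2 * ∑ σ, S.mu s u σ *
      (lin v σ ^ 2 - lam) ^ 2)) z = K * (2 * lam ^ 2 +
        2 * AvP t R (fun u => ∑ σ, S.mu s u σ * (lin v σ ^ 2 - lam) ^ 2) z) := by
    rw [AvP_const_mul, AvP_add (EG.const _) (g3.const_mul 2), AvP_const, AvP_const_mul]
  rw [← AvP_sub g1 g2, ← e1, abs_le]
  have h3 := AvP_mono (s := t) (R := R) (g1.sub g2) g4 (fun u => (abs_le.1 (h2 u)).2) z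
  have h4 := AvP_mono (s := t) (R := R) (g4.const_mul (-1)) (g1.sub g2)
    (fun u => by have := (abs_le.1 (h2 u)).1; linarith) z
  rw [AvP_const_mul] at h4
  constructor
  · linarith
  · exact h3

end Vale.Agent.P146.Cum
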