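import Vale.Agent.P146.H332.CPos

/-!
Cumulant domination, part 1: kernels on tuples of configurations.

A kernel of the index type `α` at the position `z` is a function `T z : (α → X) → ℝ`; it is
dominated (`Dm`) when it is a difference of two nonnegative kernels all of whose one-marginals are
constant multiples of the root law `μ z`.  `Good d` : dominated together with `d` derivatives
(every derivative attaches one new index).
-/

open MeasureTheory ProbabilityTheory

namespace Vale.Agent.P146.Cum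

open Vale.Agent.P157.Lv Vale.Agent.P146.H425 Vale.Agent.P146.H325

set_option linter.unusedSectionVars false

variable {ι X : Type} [Fintype ι] [DecidableEq ι] [Fintype X] [DecidableEq X]

/-- A nonnegative kernel whose one-marginals are `p` times the root law. -/
structure Pk {α : Type} [Fintype α] [DecidableEq α] (μ : (ι → ℝ) → X → ℝ) (p : ℝ)
    (P : (ι → ℝ) → (α → X) → ℝ) : Prop where
  p0 : 0 ≤ p
  nn : ∀ z x, 0 ≤ P z x
  mass : ∀ z, ∑ x, P z x = p
  marg : ∀ z a (f : X → ℝ), ∑ x, P z x * f (x a) = p * ∑ v, μ z v * f v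
  ms : ∀ x, Measurable fun z => P z x

/-- Dominated kernels. -/
def Dm {α : Type} [Fintype α] [DecidableEq α] (μ : (ι → ℝ) → X → ℝ) (c : ℝ)
    (T : (ι → ℝ) → (α → X) → ℝ) : Prop :=
  ∃ (P M : (ι → ℝ) → (α → X) → ℝ) (p m : ℝ), Pk μ p P ∧ Pk μ m M ∧
    (∀ z x, T z x = P z x - M z x) ∧ p + m ≤ c

/-- Add one configuration. -/
def ext {α : Type} (x : α → X) (y : X) : Option α → X := fun o => o.elim y x

/-- The product of two kernels. -/
def tens {α β γ : Type} (e : α ⊕ β ≃ γ) (T : (ι → ℝ) → (α → X) → ℝ)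
    (S : (ι → ℝ) → (β → X) → ℝ) : (ι → ℝ) → (γ → X) → ℝ := fun z x =>
  T z (fun a => x (e (Sum.inl a))) * S z (fun b => x (e (Sum.inr b)))

section pk

variable {α β γ : Type} [Fintype α] [DecidableEq α] [Fintype β] [DecidableEq β]
  [Fintype γ] [DecidableEq γ] {μ : (ι → ℝ) → X → ℝ} {p q c c' : ℝ}
  {P Q : (ι → ℝ) → (α → X) → ℝ} {R : (ι → ℝ) → (β → X) → ℝ}

lemma Pk.zero : Pk μ 0 (fun _ (_ : α → X) => (0 : ℝ)) :=
  ⟨le_rfl, fun _ _ => le_rfl, by simp, by simp, fun _ => measurable_const⟩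

lemma Pk.add (h : Pk μ p P) (h' : Pk μ q Q) : Pk μ (p + q) (fun z x => P z x + Q z x) :=
  ⟨add_nonneg h.p0 h'.p0, fun z x => add_nonneg (h.nn z x) (h'.nn z x),
    fun z => by rw [Finset.sum_add_distrib, h.mass, h'.mass],
    fun z a f => by
      simp only [add_mul]
      rw [Finset.sum_add_distrib, h.marg, h'.marg],
    fun x => (h.ms x).add (h'.ms x)⟩

lemma Pk.smul {a : ℝ} (ha : 0 ≤ a) (h : Pk μ p P) : Pk μ (a * p) (fun z x => a * P z x) :=
  ⟨mul_nonneg ha h.p0, fun z x => mul_nonneg ha (h.nn z x),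
    fun z => by rw [← Finset.mul_sum, h.mass],
    fun z i f => by
      simp only [mul_assoc]
      rw [← Finset.mul_sum, h.marg],
    fun x => (h.ms x).const_mul a⟩

lemma sum_tens (e : α ⊕ β ≃ γ) (G : (α → X) → (β → X) → ℝ) :
    ∑ x : γ → X, G (fun a => x (e (Sum.inl a))) (fun b => x (e (Sum.inr b))) =
      ∑ x1, ∑ x2, G x1 x2 := by
  rw [← Fintype.sum_prod_type' (f := G)]
  refine Fintype.sum_equiv ((Equiv.arrowCongr e.symm (Equiv.refl X)).trans
    (Equiv.sumArrowEquivProdArrow α β X)) _ _ fun x => ?_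
  rfl

lemma Pk.tens (e : α ⊕ β ≃ γ) (h : Pk μ p P) (h' : Pk μ q R) :
    Pk μ (p * q) (Cum.tens e P R) := by
  refine ⟨mul_nonneg h.p0 h'.p0, fun z x => mul_nonneg (h.nn _ _) (h'.nn _ _), fun z => ?_,
    fun z g f => ?_, fun x => (h.ms _).mul (h'.ms _)⟩
  · have h1 := sum_tens (X := X) e (fun x1 x2 => P z x1 * R z x2)
    refine h1.trans ?_
    simp_rw [← Finset.mul_sum, h'.mass, ← Finset.sum_mul, h.mass]
  · obtain ⟨s, rfl⟩ := e.surjective g
    rcases s with a | b
    · have h1 := sum_tens (X := X) e (fun x1 x2 => P z x1 * R z x2 * f (x1 a))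
      refine h1.trans ?_
      have h2 : ∀ x1 : α → X, ∑ x2 : β → X, P z x1 * R z x2 * f (x1 a) =
          q * (P z x1 * f (x1 a)) := by
        intro x1
        rw [← h'.mass z, Finset.sum_mul]
        exact Finset.sum_congr rfl fun x2 _ => by ring
      simp_rw [h2]
      rw [← Finset.mul_sum, h.marg]
      ring
    · have h1 := sum_tens (X := X) e (fun x1 x2 => P z x1 * R z x2 * f (x2 b))
      refine h1.trans ?_
      have h2 : ∀ x1 : α → X, ∑ x2 : β → X, P z x1 * R z x2 * f (x2 b) =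
          P z x1 * (q * ∑ v, μ z v * f v) := by
        intro x1
        rw [← h'.marg z b f, Finset.mul_sum]
        exact Finset.sum_congr rfl fun x2 _ => by ring
      simp_rw [h2]
      rw [← Finset.sum_mul, h.mass]
      ring

lemma Pk.le (h : Pk μ p P) (z : ι → ℝ) (x : α → X) : P z x ≤ p := by
  rw [← h.mass z]
  exact Finset.single_le_sum (f := fun x => P z x) (fun x _ => h.nn z x) (Finset.mem_univ x)

lemma Pk.eg (h : Pk μ p P) (x : α → X) : EG fun z => P z x :=
  EG.of_bdd (h.ms x) (C := p) fun z => by rw [abs_of_nonneg (h.nn z x)]; exact h.le z x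

/-! ### dominated kernels -/

variable {T S : (ι → ℝ) → (α → X) → ℝ} {U : (ι → ℝ) → (β → X) → ℝ}

lemma Pk.dm (h : Pk μ p P) : Dm μ p P :=
  ⟨P, fun _ _ => 0, p, 0, h, Pk.zero, fun z x => by ring, by rw [add_zero]⟩

lemma Dm.c0 (h : Dm μ c T) : 0 ≤ c := by
  obtain ⟨P, M, p, m, hP, hM, -, h1⟩ := h
  linarith [hP.p0, hM.p0]

lemma Dm.mono (h : Dm μ c T) (hc : c ≤ c') : Dm μ c' T := by
  obtain ⟨P, M, p, m, hP, hM, h0, h1⟩ := h
  exact ⟨P, M, p, m, hP, hM, h0, h1.trans hc⟩

lemma Dm.add (h : Dm μ c T) (h' : Dm μ c' S) : Dm μ (c + c') (fun z x => T z x + S z x) := by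
  obtain ⟨P, M, p, m, hP, hM, h0, h1⟩ := h
  obtain ⟨P', M', p', m', hP', hM', h0', h1'⟩ := h'
  exact ⟨_, _, _, _, hP.add hP', hM.add hM', fun z x => by simp only [h0, h0']; ring, by linarith⟩

lemma Dm.smul (a : ℝ) (h : Dm μ c T) : Dm μ (|a| * c) (fun z x => a * T z x) := by
  obtain ⟨P, M, p, m, hP, hM, h0, h1⟩ := h
  rcases le_total 0 a with ha | ha
  · refine ⟨_, _, _, _, hP.smul ha, hM.smul ha, fun z x => by simp only [h0]; ring, ?_⟩
    rw [abs_of_nonneg ha]
    nlinarith
  · refine ⟨_, _, _, _, hM.smul (neg_nonneg.2 ha), hP.smul (neg_nonneg.2 ha),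
      fun z x => by simp only [h0]; ring, ?_⟩
    rw [abs_of_nonpos ha]
    nlinarith

lemma Dm.tens (e : α ⊕ β ≃ γ) (h : Dm μ c T) (h' : Dm μ c' U) :
    Dm μ (c * c') (Cum.tens e T U) := by
  have hc := h.c0
  obtain ⟨P, M, p, m, hP, hM, h0, h1⟩ := h
  obtain ⟨P', M', p', m', hP', hM', h0', h1'⟩ := h'
  refine ⟨_, _, _, _, (hP.tens e hP').add (hM.tens e hM'), (hP.tens e hM').add (hM.tens e hP'),
    fun z x => ?_, ?_⟩
  · unfold Cum.tens
    rw [h0, h0']
    ring
  · have a1 := hP.p0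
    have a2 := hM.p0
    have a3 := hP'.p0
    have a4 := hM'.p0
    calc p * p' + m * m' + (p * m' + m * p') = (p + m) * (p' + m') := by ring
      _ ≤ c * c' := mul_le_mul h1 h1' (by linarith) hc

lemma Dm.eg (h : Dm μ c T) (x : α → X) : EG fun z => T z x := by
  obtain ⟨P, M, p, m, hP, hM, h0, h1⟩ := h
  have := (hP.eg x).sub (hM.eg x)
  refine cast ?_ this
  congr 1
  funext z
  rw [h0]

end pk

/-! ### kernels with derivatives -/

section good

variable (k : ℝ) (φ : ι → X → ℝ) (μ : (ι → ℝ) → X → ℝ) (Γ : ℝ)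

/-- `T'` is the kernel of the derivatives of `T`. -/
def DK {α : Type} (T : (ι → ℝ) → (α → X) → ℝ) (T' : (ι → ℝ) → (Option α → X) → ℝ) : Prop :=
  ∀ e x, PD e (fun z => T z x) (fun z => k * ∑ y, T' z (ext x y) * φ e y)

/-- Kernels dominated together with `d` derivatives. -/
def Good : ℕ → ∀ (α : Type) [Fintype α] [DecidableEq α], ℝ →
    ((ι → ℝ) → (α → X) → ℝ) → Prop
  | 0, _, _, _, c, T => Dm μ c T
  | d + 1, α, _, _, c, T => Dm μ c T ∧ ∃ T' : (ι → ℝ) → (Option α → X) → ℝ, DK k φ T T' ∧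
      Good d (Option α) (c * (Γ * Fintype.card α)) T'

variable {k φ μ Γ} {α β γ : Type} [Fintype α] [DecidableEq α] [Fintype β] [DecidableEq β]
  [Fintype γ] [DecidableEq γ] {c c' : ℝ} {d : ℕ}
  {T S : (ι → ℝ) → (α → X) → ℝ} {U : (ι → ℝ) → (β → X) → ℝ}

lemma Good.dm (h : Good k φ μ Γ d α c T) : Dm μ c T := by
  cases d with
  | zero => exact h
  | succ d => exact h.1

lemma Good.mono (h0 : 0 ≤ Γ) : ∀ {d : ℕ} {α : Type} [Fintype α] [DecidableEq α] {c c' : ℝ}
    {T : (ι → ℝ) → (α → X) → ℝ}, Good k φ μ Γ d α c T → c ≤ c' → Good k φ μ Γ d α c' T := by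
  intro d
  induction d with
  | zero => intro α _ _ c c' T h hc; exact Dm.mono h hc
  | succ d ih =>
    intro α _ _ c c' T h hc
    obtain ⟨h1, T', h2, h3⟩ := h
    refine ⟨h1.mono hc, T', h2, ih h3 (mul_le_mul_of_nonneg_right hc (by positivity))⟩

lemma Good.down (h0 : 0 ≤ Γ) : ∀ {d : ℕ} {α : Type} [Fintype α] [DecidableEq α] {c : ℝ}
    {T : (ι → ℝ) → (α → X) → ℝ}, Good k φ μ Γ (d + 1) α c T → Good k φ μ Γ d α c T := by
  intro d
  induction d with
  | zero => intro α _ _ c T h; exact h.1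
  | succ d ih =>
    intro α _ _ c T h
    obtain ⟨h1, T', h2, h3⟩ := h
    exact ⟨h1, T', h2, ih h3⟩

lemma Good.add : ∀ {d : ℕ} {α : Type} [Fintype α] [DecidableEq α] {c c' : ℝ}
    {T S : (ι → ℝ) → (α → X) → ℝ}, Good k φ μ Γ d α c T → Good k φ μ Γ d α c' S →
      Good k φ μ Γ d α (c + c') (fun z x => T z x + S z x) := by
  intro d
  induction d with
  | zero => intro α _ _ c c' T S h h'; exact Dm.add h h'
  | succ d ih =>
    intro α _ _ c c' T S h h'
    obtain ⟨h1, T', h2, h3⟩ := h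
    obtain ⟨h1', S', h2', h3'⟩ := h'
    refine ⟨h1.add h1', fun z x => T' z x + S' z x, fun e x => ?_, ?_⟩
    · refine ((h2 e x).add (h2' e x)).congr fun z => ?_
      rw [← mul_add, ← Finset.sum_add_distrib]
      congr 1
      exact Finset.sum_congr rfl fun y _ => by ring
    · rw [add_mul]
      exact ih h3 h3'

lemma Good.smul (a : ℝ) : ∀ {d : ℕ} {α : Type} [Fintype α] [DecidableEq α] {c : ℝ}
    {T : (ι → ℝ) → (α → X) → ℝ}, Good k φ μ Γ d α c T →
      Good k φ μ Γ d α (|a| * c) (fun z x => a * T z x) := by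
  intro d
  induction d with
  | zero => intro α _ _ c T h; exact Dm.smul a h
  | succ d ih =>
    intro α _ _ c T h
    obtain ⟨h1, T', h2, h3⟩ := h
    refine ⟨h1.smul a, fun z x => a * T' z x, fun e x => ?_, ?_⟩
    · refine ((h2 e x).const_mul a).congr fun z => ?_
      rw [← mul_assoc, mul_comm a k, mul_assoc, Finset.mul_sum]
      congr 1
      exact Finset.sum_congr rfl fun y _ => by ring
    · rw [mul_assoc]
      exact ih h3

/-- `Option α ⊕ β ≃ Option γ` -/
def eL (e : α ⊕ β ≃ γ) : Option α ⊕ β ≃ Option γ where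
  toFun s := match s with
    | Sum.inl none => none
    | Sum.inl (some a) => some (e (Sum.inl a))
    | Sum.inr b => some (e (Sum.inr b))
  invFun o := match o with
    | none => Sum.inl none
    | some g => match e.symm g with
      | Sum.inl a => Sum.inl (some a)
      | Sum.inr b => Sum.inr b
  left_inv s := by
    rcases s with (_ | a) | b <;> simp
  right_inv o := by
    rcases o with _ | g
    · rfl
    · obtain ⟨s, rfl⟩ := e.surjective g
      rcases s with a | b <;> simp

/-- `α ⊕ Option β ≃ Option γ` -/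
def eR (e : α ⊕ β ≃ γ) : α ⊕ Option β ≃ Option γ where
  toFun s := match s with
    | Sum.inr none => none
    | Sum.inl a => some (e (Sum.inl a))
    | Sum.inr (some b) => some (e (Sum.inr b))
  invFun o := match o with
    | none => Sum.inr none
    | some g => match e.symm g with
      | Sum.inl a => Sum.inl a
      | Sum.inr b => Sum.inr (some b)
  left_inv s := by
    rcases s with a | (_ | b) <;> simp
  right_inv o := by
    rcases o with _ | g
    · rfl
    · obtain ⟨s, rfl⟩ := e.surjective g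
      rcases s with a | b <;> simp

lemma tens_eL (e : α ⊕ β ≃ γ) (T' : (ι → ℝ) → (Option α → X) → ℝ)
    (U : (ι → ℝ) → (β → X) → ℝ) (z : ι → ℝ) (x : γ → X) (y : X) :
    tens (eL e) T' U z (ext x y) =
      T' z (ext (fun a => x (e (Sum.inl a))) y) * U z (fun b => x (e (Sum.inr b))) := by
  unfold tens
  congr 1
  congr 1
  funext o
  rcases o with _ | a <;> rfl

lemma tens_eR (e : α ⊕ β ≃ γ) (T : (ι → ℝ) → (α → X) → ℝ)
    (U' : (ι → ℝ) → (Option β → X) → ℝ) (z : ι → ℝ) (x : γ → X) (y : X) :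
    tens (eR e) T U' z (ext x y) =
      T z (fun a => x (e (Sum.inl a))) * U' z (ext (fun b => x (e (Sum.inr b))) y) := by
  unfold tens
  congr 1
  congr 1
  funext o
  rcases o with _ | a <;> rfl

lemma Good.tens (h0 : 0 ≤ Γ) : ∀ {d : ℕ} {α β γ : Type} [Fintype α] [DecidableEq α] [Fintype β]
    [DecidableEq β] [Fintype γ] [DecidableEq γ] {c c' : ℝ} {T : (ι → ℝ) → (α → X) → ℝ}
    {U : (ι → ℝ) → (β → X) → ℝ} (e : α ⊕ β ≃ γ), Good k φ μ Γ d α c T → Good k φ μ Γ d β c' U →
      Good k φ μ Γ d γ (c * c') (Cum.tens e T U) := by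
  intro d
  induction d with
  | zero => intro α β γ _ _ _ _ _ _ c c' T U e h h'; exact Dm.tens e h h'
  | succ d ih =>
    intro α β γ _ _ _ _ _ _ c c' T U e h h'
    have hd := h.down h0
    have hd' := h'.down h0
    obtain ⟨h1, T', h2, h3⟩ := h
    obtain ⟨h1', U', h2', h3'⟩ := h'
    refine ⟨h1.tens e h1', fun z x => Cum.tens (eL e) T' U z x + Cum.tens (eR e) T U' z x,
      fun i x => ?_, ?_⟩
    · refine ((h2 i (fun a => x (e (Sum.inl a)))).mul (h2' i (fun b => x (e (Sum.inr b))))).congr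
        fun z => ?_
      simp only [tens_eL, tens_eR, Finset.mul_sum, Finset.sum_mul]
      rw [← Finset.sum_add_distrib]
      exact Finset.sum_congr rfl fun y _ => by ring
    · have h4 := (ih (eL e) h3 hd').add (ih (eR e) hd h3')
      have h5 : Fintype.card γ = Fintype.card α + Fintype.card β := by
        rw [← Fintype.card_congr e, Fintype.card_sum]
      have h6 : c * (Γ * Fintype.card α) * c' + c * (c' * (Γ * Fintype.card β)) =
          c * c' * (Γ * Fintype.card γ) := by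
        rw [h5]
        push_cast
        ring
      rw [h6] at h4
      exact h4

end good

end Vale.Agent.P146.Cum
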