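import Vale.Agent.P146.H504.Cum2

/-!
Cumulant domination, part 3: evaluation of kernels on test functions, their derivatives, and the
bound of the sum of the squares of the fourth derivatives by the fourth moment of the overlap of
two independent configurations of the root law.
-/

open MeasureTheory ProbabilityTheory

namespace Vale.Agent.P146.Cum

open Vale.Agent.P157.Lv Vale.Agent.P146.H425 Vale.Agent.P146.H325 Vale.Agent.P146.H785

set_option linter.unusedSectionVars false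

variable {ι X : Type} [Fintype ι] [DecidableEq ι] [Fintype X] [DecidableEq X]

/-- evaluation on a product of test functions -/
noncomputable def ev {α : Type} [Fintype α] [DecidableEq α] (T : (ι → ℝ) → (α → X) → ℝ)
    (g : α → X → ℝ) (z : ι → ℝ) : ℝ := ∑ x, T z x * ∏ a, g a (x a)

/-- one more test function -/
def exg {α : Type} (g : α → X → ℝ) (f : X → ℝ) : Option α → X → ℝ := fun o => o.elim f g

section

variable {α : Type} [Fintype α] [DecidableEq α]

lemma sum_ext {Y : Type} [Fintype Y] (G : (Option α → Y) → ℝ) :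
    ∑ x, G x = ∑ x : α → Y, ∑ y, G (fun o => o.elim y x) := by
  rw [← Fintype.sum_prod_type' (f := fun (x : α → Y) (y : Y) => G (fun o => o.elim y x))]
  refine Fintype.sum_equiv ((Equiv.piOptionEquivProd (β := fun _ : Option α => Y)).trans
    (Equiv.prodComm _ _)) _ _ fun x => ?_
  congr 1
  funext o
  rcases o with _ | a <;> rfl

lemma ev_exg (T' : (ι → ℝ) → (Option α → X) → ℝ) (g : α → X → ℝ) (f : X → ℝ) (z : ι → ℝ) :
    ev T' (exg g f) z = ∑ x : α → X, (∑ y, T' z (ext x y) * f y) * ∏ a, g a (x a) := by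
  unfold ev
  rw [sum_ext]
  refine Finset.sum_congr rfl fun x _ => ?_
  rw [Finset.sum_mul]
  refine Finset.sum_congr rfl fun y _ => ?_
  rw [Fintype.prod_option]
  show T' z (ext x y) * (f y * ∏ a, g a (x a)) = _
  ring

variable {k : ℝ} {φ : ι → X → ℝ} {μ : (ι → ℝ) → X → ℝ} {c : ℝ}
  {T : (ι → ℝ) → (α → X) → ℝ} {T' : (ι → ℝ) → (Option α → X) → ℝ}

lemma pd_ev (h : DK k φ T T') (g : α → X → ℝ) (e : ι) :
    PD e (ev T g) (fun z => k * ev T' (exg g (φ e)) z) := by
  have h1 : PD e (fun z => ∑ x, (∏ a, g a (x a)) * T z x)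
      (fun z => ∑ x : α → X, (∏ a, g a (x a)) * (k * ∑ y, T' z (ext x y) * φ e y)) :=
    PD.sum _ fun x _ => (h e x).const_mul _
  have e1 : ev T g = fun z => ∑ x, (∏ a, g a (x a)) * T z x := by
    funext z
    exact Finset.sum_congr rfl fun x _ => mul_comm _ _
  rw [e1]
  refine h1.congr fun z => ?_
  rw [ev_exg, Finset.mul_sum]
  exact Finset.sum_congr rfl fun x _ => by ring

lemma Dm.eg_ev (h : Dm μ c T) (g : α → X → ℝ) : EG (ev T g) :=
  EG.sum _ fun x _ => (h.eg x).mul (EG.const _)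

/-- a mean with weights of four numbers -/
lemma amgm {lam t : α → ℝ} (hcard : Fintype.card α = 4) (hl : ∀ a, 0 < lam a)
    (hp : ∏ a, lam a = 1) : |∏ a, t a| ≤ ∑ a, lam a / 4 * t a ^ 4 := by
  have h1 := Real.geom_mean_le_arith_mean_weighted (Finset.univ : Finset α) (fun _ => (1 / 4 : ℝ))
    (fun a => lam a * t a ^ 4) (fun _ _ => by norm_num) (by simp [hcard])
    (fun a _ => mul_nonneg (hl a).le (by positivity))
  rw [Real.finsetProd_rpow _ _ fun a _ => mul_nonneg (hl a).le (by positivity)] at h1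
  have h2 : (∏ a, lam a * t a ^ 4) = (|∏ a, t a|) ^ 4 := by
    rw [Finset.prod_mul_distrib, hp, one_mul, Finset.prod_pow, Even.pow_abs (by decide)]
  rw [h2, one_div, show (4 : ℝ)⁻¹ = ((4 : ℕ) : ℝ)⁻¹ by norm_num,
    Real.pow_rpow_inv_natCast (abs_nonneg _) (by norm_num)] at h1
  refine h1.trans (le_of_eq (Finset.sum_congr rfl fun a _ => ?_))
  push_cast
  ring

/-- the fourth moment of an overlap -/
noncomputable def m4 {I : Type} [Fintype I] (μ : (ι → ℝ) → X → ℝ) (g : I → X → ℝ)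
    (z : ι → ℝ) : ℝ := ∑ v, μ z v * ∑ v', μ z v' * (∑ i, g i v * g i v') ^ 4

lemma m4_nonneg {I : Type} [Fintype I] (hμ : ∀ z v, 0 ≤ μ z v) (g : I → X → ℝ) (z : ι → ℝ) :
    0 ≤ m4 μ g z :=
  Finset.sum_nonneg fun v _ => mul_nonneg (hμ z v) (Finset.sum_nonneg fun v' _ =>
    mul_nonneg (hμ z v') (by positivity))

lemma eg_m4 {I : Type} [Fintype I] (hμ : ∀ v, EG fun z => μ z v) (g : I → X → ℝ) :
    EG (m4 μ g) :=
  EG.sum _ fun v _ => (hμ v).mul (EG.sum _ fun v' _ => (hμ v').mul (EG.const _))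

/-- **The bound.** -/
theorem ev_sq_sum {I : Type} [Fintype I] [DecidableEq I] (hcard : Fintype.card α = 4)
    (h : Dm μ c T) (hμ : ∀ z v, 0 ≤ μ z v) (g : α → I → X → ℝ) {lam : α → ℝ}
    (hl : ∀ a, 0 < lam a) (hp : ∏ a, lam a = 1) (z : ι → ℝ) :
    ∑ f : α → I, ev T (fun a => g a (f a)) z ^ 2 ≤ c ^ 2 * ∑ a, lam a / 4 * m4 μ (g a) z := by
  have hc := h.c0
  obtain ⟨P, M, p, m, hP, hM, hT, hpm⟩ := h
  have hQ := hP.add hM
  set Q : (ι → ℝ) → (α → X) → ℝ := fun z x => P z x + M z x with hQd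
  set q : ℝ := p + m with hq
  set G : α → X → X → ℝ := fun a v v' => ∑ i, g a i v * g a i v' with hG
  have h1 : ∑ f : α → I, ev T (fun a => g a (f a)) z ^ 2 =
      ∑ x, ∑ x', T z x * T z x' * ∏ a, G a (x a) (x' a) := by
    have e1 : ∀ f : α → I, ev T (fun a => g a (f a)) z ^ 2 = ∑ x, ∑ x', T z x * T z x' *
        ∏ a, (g a (f a) (x a) * g a (f a) (x' a)) := by
      intro f
      unfold ev
      rw [sq, Finset.sum_mul_sum]
      refine Finset.sum_congr rfl fun x _ => Finset.sum_congr rfl fun x' _ => ?_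
      rw [Finset.prod_mul_distrib]
      ring
    simp_rw [e1]
    rw [Finset.sum_comm]
    refine Finset.sum_congr rfl fun x _ => ?_
    rw [Finset.sum_comm]
    refine Finset.sum_congr rfl fun x' _ => ?_
    rw [← Finset.mul_sum]
    congr 1
    rw [hG]
    simp only
    rw [Finset.prod_univ_sum, Fintype.piFinset_univ]
  have h2 : ∀ x x' : α → X, T z x * T z x' * ∏ a, G a (x a) (x' a) ≤
      Q z x * Q z x' * ∑ a, lam a / 4 * G a (x a) (x' a) ^ 4 := by
    intro x x'
    have a1 : |T z x| ≤ Q z x := by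
      rw [hT, abs_le]
      have := hP.nn z x
      have := hM.nn z x
      constructor <;> simp only [hQd] <;> linarith
    have a2 : |T z x'| ≤ Q z x' := by
      rw [hT, abs_le]
      have := hP.nn z x'
      have := hM.nn z x'
      constructor <;> simp only [hQd] <;> linarith
    have a3 := amgm (t := fun a => G a (x a) (x' a)) hcard hl hp
    calc T z x * T z x' * ∏ a, G a (x a) (x' a) ≤ |T z x * T z x' * ∏ a, G a (x a) (x' a)| :=
        le_abs_self _
      _ = |T z x| * |T z x'| * |∏ a, G a (x a) (x' a)| := by rw [abs_mul, abs_mul]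
      _ ≤ _ := mul_le_mul (mul_le_mul a1 a2 (abs_nonneg _) (hQ.nn z x)) a3 (abs_nonneg _)
        (mul_nonneg (hQ.nn z x) (hQ.nn z x'))
  have h3 : ∑ x, ∑ x', Q z x * Q z x' * ∑ a, lam a / 4 * G a (x a) (x' a) ^ 4 =
      q ^ 2 * ∑ a, lam a / 4 * m4 μ (g a) z := by
    have e1 : ∀ x x' : α → X, Q z x * Q z x' * ∑ a, lam a / 4 * G a (x a) (x' a) ^ 4 =
        ∑ a, lam a / 4 * (Q z x * (Q z x' * G a (x a) (x' a) ^ 4)) := by
      intro x x'
      rw [Finset.mul_sum]
      exact Finset.sum_congr rfl fun a _ => by ring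
    simp_rw [e1]
    have e2 : ∀ x : α → X, ∑ x' : α → X, ∑ a, lam a / 4 * (Q z x * (Q z x' *
        G a (x a) (x' a) ^ 4)) = ∑ a, lam a / 4 * (Q z x *
          (q * ∑ v', μ z v' * G a (x a) v' ^ 4)) := by
      intro x
      rw [Finset.sum_comm]
      refine Finset.sum_congr rfl fun a _ => ?_
      rw [← hQ.marg z a (fun v' => G a (x a) v' ^ 4), Finset.mul_sum, Finset.mul_sum]
    simp_rw [e2]
    rw [Finset.sum_comm, Finset.mul_sum]
    refine Finset.sum_congr rfl fun a _ => ?_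
    rw [← Finset.mul_sum, hQ.marg z a (fun v => q * ∑ v', μ z v' * G a v v' ^ 4)]
    unfold m4
    rw [mul_left_comm (q ^ 2)]
    congr 1
    rw [Finset.mul_sum, Finset.mul_sum]
    exact Finset.sum_congr rfl fun v _ => by ring
  rw [h1]
  refine (Finset.sum_le_sum fun x _ => Finset.sum_le_sum fun x' _ => h2 x x').trans ?_
  rw [h3]
  refine mul_le_mul_of_nonneg_right (pow_le_pow_left₀ hQ.p0 hpm 2) ?_
  exact Finset.sum_nonneg fun a _ => mul_nonneg (by have := hl a; positivity) (m4_nonneg hμ _ z)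

end

/-! ### the first four derivatives -/

/-- The index types of the first four derivatives. -/
abbrev Lg1 := Unit
/-- The index types of the first four derivatives. -/
abbrev Lg2 := Option Unit
/-- The index types of the first four derivatives. -/
abbrev Lg3 := Option (Option Unit)
/-- The index types of the first four derivatives. -/
abbrev Lg4 := Option (Option (Option Unit))

/-- The kernels of the first four derivatives. -/
structure Four (k : ℝ) (φ : ι → X → ℝ) (μ : (ι → ℝ) → X → ℝ) (Γ : ℝ)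
    (T2 : (ι → ℝ) → (Lg2 → X) → ℝ) (T3 : (ι → ℝ) → (Lg3 → X) → ℝ)
    (T4 : (ι → ℝ) → (Lg4 → X) → ℝ) : Prop where
  d2 : DK k φ (fun z (x : Unit → X) => μ z (x ())) T2
  d3 : DK k φ T2 T3
  d4 : DK k φ T3 T4
  c2 : Dm μ Γ T2
  c3 : Dm μ (2 * Γ ^ 2) T3
  c4 : Dm μ (6 * Γ ^ 3) T4

theorem Fn.four {k : ℝ} {φ : ι → X → ℝ} {F : (ι → ℝ) → ℝ} {μ : (ι → ℝ) → X → ℝ} {Γ : ℝ}
    (h : Fn k φ F μ Γ) : ∃ T2 T3 T4, Four k φ μ Γ T2 T3 T4 := by
  obtain ⟨-, T2, d2, g2, T3, d3, g3, T4, d4, g4⟩ := h.good 3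
  refine ⟨T2, T3, T4, d2, d3, d4, g2.mono (le_of_eq ?_), g3.mono (le_of_eq ?_),
    Dm.mono g4 (le_of_eq ?_)⟩
  · simp
  · simp
    ring
  · simp
    ring

end Vale.Agent.P146.Cum
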