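import Vale.Agent.P146.H504.Cum3
import Vale.Agent.P146.H645.CS0
import Vale.Agent.P146.H712.AvPq

/-!
Cumulant domination, part 4: the inequalities (I1), (I2).  The variance of the row gradients `H`
over the couplings of the row is bounded by the fourth moments of the overlap of two
configurations of the root law at the full level.
-/

open MeasureTheory ProbabilityTheory

namespace Vale.Agent.P146.Cum

open Vale.Agent.P157.Lv Vale.Agent.P146.H425 Vale.Agent.P146.H325
  Vale.Agent.P146.H712 Vale.Agent.P146.R1 Vale.Agent.P146.R1C Vale.Agent.P146.R1S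

set_option linter.unusedSectionVars false

/-! ### second order Poincare inequality over a row -/

section poin

variable {n : ℕ} {s : ℝ} {b : Fin n}

lemma pd_unique {ι : Type} [DecidableEq ι] {e : ι} {f f1 f2 : (ι → ℝ) → ℝ} (h1 : PD e f f1)
    (h2 : PD e f f2) (z : ι → ℝ) : f1 z = f2 z := by
  have h3 := (h1 z (z e)).unique (h2 z (z e))
  rwa [Function.update_eq_self] at h3

/-- the derivative of an even function is odd -/
lemma pd_odd {f f' : (Pair n → ℝ) → ℝ} {e : Pair n} (he : e ∈ row b) (hd : PD e f f')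
    (hf : ∀ z, f (fl b z) = f z) (z : Pair n → ℝ) : f' (fl b z) = -f' z := by
  have h1 : PD e f (fun z => -f' (fl b z)) := by
    intro y x
    have h2 : ∀ t, fl b (Function.update y e t) = Function.update (fl b y) e (-t) := by
      intro t
      funext j
      by_cases hj : j = e
      · subst hj
        rw [fl_row he, Function.update_self, Function.update_self]
      · rw [Function.update_of_ne hj]
        unfold fl
        rw [Function.update_of_ne hj]
    have h3 := (hd (fl b y) (-x)).comp x (hasDerivAt_neg x)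
    have h4 : (fun t => f (Function.update y e t)) =
        (fun t => f (Function.update (fl b y) e t)) ∘ Neg.neg := by
      funext t
      simp only [Function.comp_apply]
      rw [← h2, hf]
    show HasDerivAt (fun t => f (Function.update y e t)) (-f' (fl b (Function.update y e x))) x
    rw [h4, h2]
    refine h3.congr_deriv ?_
    ring
  have h2 := pd_unique hd h1 z
  linarith

lemma AvP_odd0 {g : (Pair n → ℝ) → ℝ} (hg : Measurable g) (ho : ∀ z, g (fl b z) = -g z)
    (z : Pair n → ℝ) : AvP s (row b) g z = 0 := by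
  have h1 := R1C.AvP_fl (s := s) b b hg z
  have h2 : AvP s (row b) g (fl b z) = AvP s (row b) g z := by
    have h3 : fl b z = H712.sw (row b) z (fl b z) := by
      funext e
      by_cases he : e ∈ row b
      · simp [H712.sw, he]
      · simp [H712.sw, he, fl_not he]
    rw [h3, AvP_sw]
  have h4 : AvP s (row b) (fun z => g (fl b z)) z = -AvP s (row b) g z := by
    have h5 : (fun z => g (fl b z)) = fun z => (-1) * g z := by
      funext z
      rw [ho]
      ring
    rw [h5, R1C.AvP_const_mul]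
    ring
  linarith

/-- Second order Poincare inequality for even functions. -/
theorem poin2 (hs : 0 ≤ s) {f : (Pair n → ℝ) → ℝ} {f1 : Pair n → (Pair n → ℝ) → ℝ}
    {f2 : Pair n → Pair n → (Pair n → ℝ) → ℝ} (hf : EG f) (h1 : ∀ e, EG (f1 e))
    (h2 : ∀ e e', EG (f2 e e')) (d1 : ∀ e ∈ row b, PD e f (f1 e))
    (d2 : ∀ e ∈ row b, ∀ e' ∈ row b, PD e' (f1 e) (f2 e e'))
    (he : ∀ z, f (fl b z) = f z) (z : Pair n → ℝ) :
    AvP s (row b) (fun z => (f z - AvP s (row b) f z) ^ 2) z ≤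
      s ^ 2 * AvP s (row b) (fun z => ∑ e ∈ row b, ∑ e' ∈ row b, f2 e e' z ^ 2) z := by
  have p1 := AvP_poincare (R := row b) hs hf d1 (fun e _ => h1 e) z
  refine p1.trans ?_
  rw [R1C.AvP_sum (row b) (fun e _ => (h1 e).pow 2), pow_two, mul_assoc]
  refine mul_le_mul_of_nonneg_left ?_ hs
  rw [R1C.AvP_sum (row b) (fun e _ => EG.sum _ fun e' _ => (h2 e e').pow 2), Finset.mul_sum]
  refine Finset.sum_le_sum fun e hb => ?_
  have h0 := fun z => AvP_odd0 (s := s) (h1 e).meas (pd_odd hb (d1 e hb) he) z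
  have p2 := AvP_poincare (R := row b) hs (h1 e) (d2 e hb) (fun e' _ => h2 e e') z
  simp only [h0, sub_zero] at p2
  exact p2

/-- The same with an additional average, for a family of functions. -/
theorem poin2_av (hs : 0 ≤ s) (R' : Finset (Pair n)) {f : (Pair n → ℝ) → ℝ}
    {f1 : Pair n → (Pair n → ℝ) → ℝ}
    {f2 : Pair n → Pair n → (Pair n → ℝ) → ℝ} (hf : EG f) (h1 : ∀ e, EG (f1 e))
    (h2 : ∀ e e', EG (f2 e e')) (d1 : ∀ e ∈ row b, PD e f (f1 e))
    (d2 : ∀ e ∈ row b, ∀ e' ∈ row b, PD e' (f1 e) (f2 e e'))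
    (he : ∀ z, f (fl b z) = f z) (z : Pair n → ℝ) :
    AvP s (row b ∪ R') (fun z => (AvP s R' f z - AvP s (row b ∪ R') f z) ^ 2) z ≤
      s ^ 2 * AvP s (row b ∪ R') (fun z => ∑ e ∈ row b, ∑ e' ∈ row b, f2 e e' z ^ 2) z := by
  set g : (Pair n → ℝ) → ℝ := fun z => f z - AvP s (row b) f z with hg
  have hav : EG (AvP s (row b) f) := eg_AvP hf s (row b)
  have hgg : EG g := hf.sub hav
  have e1 : ∀ z, AvP s R' f z - AvP s (row b ∪ R') f z = AvP s R' g z := by
    intro z
    rw [hg, R1C.AvP_sub hf hav, Finset.union_comm, ← R1C.AvP_AvP hf]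
  have e2 : AvP s (row b ∪ R') (fun z => (AvP s R' f z - AvP s (row b ∪ R') f z) ^ 2) z ≤
      AvP s (row b ∪ R') (AvP s R' fun z => g z ^ 2) z := by
    simp only [e1]
    exact R1C.AvP_mono ((eg_AvP hgg s R').pow 2) (eg_AvP (hgg.pow 2) s R')
      (fun z => R1C.AvP_sq_le hgg z) z
  have e3 : AvP s (row b ∪ R') (AvP s R' fun z => g z ^ 2) z =
      AvP s R' (AvP s (row b) fun z => g z ^ 2) z := by
    rw [R1C.AvP_AvP (hgg.pow 2), R1C.AvP_AvP (hgg.pow 2), Finset.union_assoc,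
      Finset.union_self, Finset.union_comm]
  have hS : EG fun z => ∑ e ∈ row b, ∑ e' ∈ row b, f2 e e' z ^ 2 :=
    EG.sum _ fun e _ => EG.sum _ fun e' _ => (h2 e e').pow 2
  refine e2.trans ?_
  rw [e3, Finset.union_comm, ← R1C.AvP_AvP hS, ← R1C.AvP_const_mul]
  exact R1C.AvP_mono (eg_AvP (hgg.pow 2) s (row b)) ((eg_AvP hS s (row b)).const_mul _)
    (fun z => poin2 hs hf h1 h2 d1 d2 he z) z

end poin

/-! ### the row gradients as kernels -/

section rows

variable {n : ℕ} {k x s Γ : ℝ} (S : CS n k x)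

/-- Fourth moment of the overlap of the projected configurations. -/
noncomputable def qP (P : Matrix (Fin n) (Fin n) ℝ) (s : ℝ) (z : Pair n → ℝ) : ℝ :=
  ∑ σ, S.mu s z σ * ∑ τ, S.mu s z τ *
    (∑ i, (∑ l, P i l * sp σ l) * (∑ l, P i l * sp τ l)) ^ 4

/-- Sum of the squares of the four point functions. -/
noncomputable def qT (s : ℝ) (z : Pair n → ℝ) : ℝ :=
  ∑ i, ∑ j, ∑ p, ∑ q, S.T4 s z i j p q ^ 2

lemma qP_nonneg (P : Matrix (Fin n) (Fin n) ℝ) (s : ℝ) (z : Pair n → ℝ) : 0 ≤ qP S P s z :=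
  Finset.sum_nonneg fun σ _ => mul_nonneg (S.mu0 s z σ) (Finset.sum_nonneg fun τ _ =>
    mul_nonneg (S.mu0 s z τ) (by positivity))

lemma eg_qP (P : Matrix (Fin n) (Fin n) ℝ) (s : ℝ) : EG (qP S P s) :=
  EG.sum _ fun σ _ => (S.eg_mu s σ).mul (EG.sum _ fun τ _ => (S.eg_mu s τ).mul (EG.const _))

lemma qT_eq (s : ℝ) (z : Pair n → ℝ) : qT S s z =
    ∑ σ, S.mu s z σ * ∑ τ, S.mu s z τ * (∑ i, sp σ i * sp τ i) ^ 4 := by
  have e1 : ∀ σ τ : Fin n → ℤˣ, (∑ i, sp σ i * sp τ i) ^ 4 =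
      ∑ i, ∑ j, ∑ p, ∑ q, (pr i j σ * pr p q σ) * (pr i j τ * pr p q τ) := by
    intro σ τ
    have : (∑ i, sp σ i * sp τ i) ^ 4 = ((∑ i, sp σ i * sp τ i) * (∑ j, sp σ j * sp τ j)) *
      ((∑ p, sp σ p * sp τ p) * (∑ q, sp σ q * sp τ q)) := by ring
    rw [this, Finset.sum_mul_sum, Finset.sum_mul_sum]
    simp only [Finset.sum_mul, Finset.mul_sum]
    refine Finset.sum_congr rfl fun i _ => Finset.sum_congr rfl fun j _ =>
      Finset.sum_congr rfl fun p _ => Finset.sum_congr rfl fun q _ => ?_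
    unfold pr
    ring
  have e2 : ∀ i j p q, S.T4 s z i j p q ^ 2 = ∑ σ, ∑ τ, S.mu s z σ * (S.mu s z τ *
      ((pr i j σ * pr p q σ) * (pr i j τ * pr p q τ))) := by
    intro i j p q
    rw [S.T4_mu, pow_two, Finset.sum_mul_sum]
    refine Finset.sum_congr rfl fun σ _ => Finset.sum_congr rfl fun τ _ => ?_
    ring
  unfold qT
  simp_rw [e1, e2, Finset.mul_sum]
  calc _ = ∑ i, ∑ j, ∑ p, ∑ σ, ∑ q, ∑ τ, S.mu s z σ * (S.mu s z τ *
        ((pr i j σ * pr p q σ) * (pr i j τ * pr p q τ))) :=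
        Finset.sum_congr rfl fun i _ => Finset.sum_congr rfl fun j _ =>
          Finset.sum_congr rfl fun p _ => Finset.sum_comm
    _ = ∑ i, ∑ j, ∑ σ, ∑ p, ∑ τ, ∑ q, S.mu s z σ * (S.mu s z τ *
        ((pr i j σ * pr p q σ) * (pr i j τ * pr p q τ))) :=
        Finset.sum_congr rfl fun i _ => Finset.sum_congr rfl fun j _ => by
          rw [Finset.sum_comm]
          exact Finset.sum_congr rfl fun σ _ => Finset.sum_congr rfl fun p _ => Finset.sum_comm
    _ = ∑ i, ∑ σ, ∑ j, ∑ τ, ∑ p, ∑ q, S.mu s z σ * (S.mu s z τ *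
        ((pr i j σ * pr p q σ) * (pr i j τ * pr p q τ))) :=
        Finset.sum_congr rfl fun i _ => by
          rw [Finset.sum_comm]
          exact Finset.sum_congr rfl fun σ _ => Finset.sum_congr rfl fun j _ => Finset.sum_comm
    _ = ∑ σ, ∑ i, ∑ τ, ∑ j, ∑ p, ∑ q, S.mu s z σ * (S.mu s z τ *
        ((pr i j σ * pr p q σ) * (pr i j τ * pr p q τ))) := by
          rw [Finset.sum_comm]
          exact Finset.sum_congr rfl fun σ _ => Finset.sum_congr rfl fun i _ => Finset.sum_comm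
    _ = ∑ σ, ∑ τ, ∑ i, ∑ j, ∑ p, ∑ q, S.mu s z σ * (S.mu s z τ *
        ((pr i j σ * pr p q σ) * (pr i j τ * pr p q τ))) :=
          Finset.sum_congr rfl fun σ _ => Finset.sum_comm
    _ = _ := rfl

variable {S} {b : Fin n} {T2 : (Pair n → ℝ) → (Lg2 → Fin n → ℤˣ) → ℝ}
  {T3 : (Pair n → ℝ) → (Lg3 → Fin n → ℤˣ) → ℝ} {T4 : (Pair n → ℝ) → (Lg4 → Fin n → ℤˣ) → ℝ}

/-- test functions of the legs -/
noncomputable def lg (b : Fin n) (j : Fin n) (σ : Fin n → ℤˣ) : ℝ := sp σ b * sp σ j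

lemma lg_SkS {e : Pair n} (he : e ∈ row b) : SkS e = lg b (oth b e) := by
  rw [SkS_oth he]
  rfl

/-- The row gradients. -/
lemma H_ev (hF : Four k SkS (S.mu s) Γ T2 T3 T4) (hs : 0 < s) (z : Pair n → ℝ) {i j : Fin n}
    (hj : j ≠ b) : S.H s b z i j = ev T2 (exg (fun _ => lg b i) (lg b j)) z := by
  have he := cp_mem b j hj
  have h1 : PD (cp b j hj) (fun z => S.A s z i b) (fun z => S.DA s (cp b j hj) z i b) :=
    pd_of_fd (S.fd_A s i b) (cp b j hj)
  have h2 := pd_ev hF.d2 (fun _ => lg b i) (cp b j hj)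
  have e1 : ev (fun z (x : Unit → Fin n → ℤˣ) => S.mu s z (x ())) (fun _ => lg b i) =
      fun z => S.A s z i b := by
    funext z
    unfold ev
    rw [S.A_mu]
    simp only [Finset.univ_unique, Finset.prod_singleton]
    rw [sum_unit (fun σ => S.mu s z σ * lg b i σ)]
    refine Finset.sum_congr rfl fun σ _ => ?_
    unfold lg pr
    ring
  rw [e1] at h2
  have h3 := pd_unique h1 h2 z
  rw [S.DA_row hs he, oth_cp, lg_SkS he, oth_cp] at h3
  exact mul_left_cancel₀ S.k0.ne' h3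

end rows

end Vale.Agent.P146.Cum
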