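import Vale.Agent.P146.H504.Cum3

/-!
Cumulant domination, part 7: derivatives in one direction, and one Gaussian layer at the second
and at the fourth order: the fourth derivative of `W m s F` in the direction `w` is the tilted
average of the fourth derivative of `F` up to `C m k^4` times the fourth moment of the form `w`
under the root law.
-/

open MeasureTheory ProbabilityTheory

namespace Vale.Agent.P146.Cum

open Vale.Agent.P157.Lv Vale.Agent.P146.H425 Vale.Agent.P146.H325 Vale.Agent.P146.H785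

set_option linter.unusedSectionVars false

/-! ### derivatives in one direction -/

section dir

variable {ι : Type} [Fintype ι] {w : ι → ℝ} {f g f1 f2 f3 f4 : (ι → ℝ) → ℝ}

/-- `g` is the derivative of `f` in the direction `w`. -/
def Dw (w : ι → ℝ) (f g : (ι → ℝ) → ℝ) : Prop :=
  ∀ z, HasDerivAt (fun t : ℝ => f (z + t • w)) (g z) 0

lemma Dw.at' (h : Dw w f g) (z : ι → ℝ) (t : ℝ) :
    HasDerivAt (fun t : ℝ => f (z + t • w)) (g (z + t • w)) t := by
  have h1 := h (z + t • w)
  have h2 : HasDerivAt (fun r : ℝ => f (z + t • w + r • w)) (g (z + t • w)) (t - t) := by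
    rw [sub_self]
    exact h1
  have h3 := h2.comp_sub_const t t
  refine h3.congr_of_eventuallyEq (Filter.Eventually.of_forall fun r => ?_)
  show f (z + r • w) = f (z + t • w + (r - t) • w)
  congr 1
  rw [add_assoc, ← add_smul]
  congr 2
  ring

lemma Dw.deriv_eq (h : Dw w f g) (z : ι → ℝ) :
    deriv (fun t : ℝ => f (z + t • w)) = fun t => g (z + t • w) :=
  funext fun t => (h.at' z t).deriv

lemma Dw.const_mul (h : Dw w f g) (c : ℝ) : Dw w (fun z => c * f z) (fun z => c * g z) :=
  fun z => (h z).const_mul c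

lemma Dw.congr (h : Dw w f g) (h' : ∀ z, f1 z = g z) : Dw w f f1 := fun z => by
  rw [h' z]
  exact h z

lemma Dw.it2 (h1 : Dw w f f1) (h2 : Dw w f1 f2) (z : ι → ℝ) :
    iteratedDeriv 2 (fun t : ℝ => f (z + t • w)) = fun t => f2 (z + t • w) := by
  rw [iteratedDeriv_succ', h1.deriv_eq, iteratedDeriv_one, h2.deriv_eq]

lemma Dw.it4 (h1 : Dw w f f1) (h2 : Dw w f1 f2) (h3 : Dw w f2 f3) (h4 : Dw w f3 f4)
    (z : ι → ℝ) :
    iteratedDeriv 4 (fun t : ℝ => f (z + t • w)) = fun t => f4 (z + t • w) := by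
  rw [iteratedDeriv_succ', h1.deriv_eq, iteratedDeriv_succ', h2.deriv_eq, h3.it2 h4]

end dir

/-! ### from the partial derivatives to the directions -/

section part

variable {ι : Type} [Fintype ι] [DecidableEq ι] {f : (ι → ℝ) → ℝ}
  {f' : ι → (ι → ℝ) → ℝ} {C L : ℝ}

/-- the part of a vector on a set of coordinates -/
def cutT (T : Finset ι) (w : ι → ℝ) : ι → ℝ := fun e => if e ∈ T then w e else 0

lemma cutT_univ (w : ι → ℝ) : cutT Finset.univ w = w := by
  funext e
  simp [cutT]

lemma cutT_insert {T : Finset ι} {a : ι} (ha : a ∉ T) (y w : ι → ℝ) :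
    y + cutT (insert a T) w = Function.update (y + cutT T w) a (y a + w a) := by
  funext e
  by_cases he : e = a
  · subst he
    simp [cutT]
  · rw [Function.update_of_ne he]
    simp [cutT, he]

lemma cutT_upd {T : Finset ι} {a : ι} (ha : a ∉ T) (y w : ι → ℝ) :
    y + cutT T w = Function.update (y + cutT T w) a (y a) := by
  funext e
  by_cases he : e = a
  · subst he
    simp [cutT, ha]
  · rw [Function.update_of_ne he]

lemma step_pdT {a : ι} {g : (ι → ℝ) → ℝ} (hd : PD a f g) (u : ι → ℝ) {p q c : ℝ}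
    (hC : ∀ t ∈ Set.uIcc p q, |g (Function.update u a t) - c| ≤ C) :
    |f (Function.update u a q) - f (Function.update u a p) - c * (q - p)| ≤ C * |q - p| := by
  have h1 : ∀ t ∈ Set.uIcc p q, HasDerivWithinAt
      (fun t => f (Function.update u a t) - c * t) (g (Function.update u a t) - c)
      (Set.uIcc p q) t := by
    intro t _
    have h2 := (hd u t).sub ((hasDerivAt_id t).const_mul c)
    simp only [mul_one] at h2
    exact h2.hasDerivWithinAt
  have h3 := Convex.norm_image_sub_le_of_norm_hasDerivWithin_le h1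
    (fun t ht => by rw [Real.norm_eq_abs]; exact hC t ht) (convex_uIcc p q)
    Set.left_mem_uIcc Set.right_mem_uIcc
  rw [Real.norm_eq_abs, Real.norm_eq_abs] at h3
  refine le_trans (le_of_eq ?_) h3
  congr 1
  ring

lemma lip_pdT (hd : ∀ e, PD e f (f' e)) (h0 : 0 ≤ C) (hC : ∀ e y, |f' e y| ≤ C)
    (y w : ι → ℝ) (T : Finset ι) : |f (y + cutT T w) - f y| ≤ T.card * (C * ‖w‖) := by
  induction T using Finset.induction_on with
  | empty =>
    have : y + cutT ∅ w = y := by
      funext e
      simp [cutT]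
    rw [this]
    simp
  | insert a T ha ih =>
    have h1 := step_pdT (C := C) (c := 0) (hd a) (y + cutT T w) (p := y a) (q := y a + w a)
      (fun t _ => by rw [sub_zero]; exact hC a _)
    rw [← cutT_insert ha, ← cutT_upd ha, zero_mul, sub_zero, add_sub_cancel_left] at h1
    have h2 : |w a| ≤ ‖w‖ := by
      rw [← Real.norm_eq_abs]
      exact norm_le_pi_norm w a
    have h3 : f (y + cutT (insert a T) w) - f y =
        (f (y + cutT (insert a T) w) - f (y + cutT T w)) + (f (y + cutT T w) - f y) := by ring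
    rw [h3, Finset.card_insert_of_notMem ha]
    refine (abs_add_le _ _).trans ?_
    have h4 := mul_le_mul_of_nonneg_left h2 h0
    push_cast
    linarith

lemma quad_pdT (hd : ∀ e, PD e f (f' e)) (h0 : 0 ≤ L)
    (hL : ∀ e y w, |f' e (y + w) - f' e y| ≤ L * ‖w‖) (y w : ι → ℝ) (T : Finset ι) :
    |f (y + cutT T w) - f y - ∑ e ∈ T, f' e y * w e| ≤ T.card * (L * ‖w‖ ^ 2) := by
  induction T using Finset.induction_on with
  | empty =>
    have : y + cutT ∅ w = y := by
      funext e
      simp [cutT]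
    rw [this]
    simp
  | insert a T ha ih =>
    have h2 : |w a| ≤ ‖w‖ := by
      rw [← Real.norm_eq_abs]
      exact norm_le_pi_norm w a
    have h1 := step_pdT (C := L * ‖w‖) (c := f' a y) (hd a) (y + cutT T w) (p := y a)
      (q := y a + w a) (fun t ht => by
        have e1 : Function.update (y + cutT T w) a t = y + Function.update (cutT T w) a (t - y a) := by
          funext e
          by_cases he : e = a
          · subst he
            simp
          · rw [Function.update_of_ne he, Pi.add_apply, Pi.add_apply, Function.update_of_ne he]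
        rw [e1]
        refine (hL a _ _).trans (mul_le_mul_of_nonneg_left ?_ h0)
        refine (pi_norm_le_iff_of_nonneg (norm_nonneg w)).2 fun e => ?_
        by_cases he : e = a
        · subst he
          rw [Function.update_self, Real.norm_eq_abs]
          refine le_trans ?_ h2
          have h5 := Set.abs_sub_left_of_mem_uIcc ht
          rwa [add_sub_cancel_left] at h5
        · rw [Function.update_of_ne he]
          unfold cutT
          split_ifs
          · exact norm_le_pi_norm w e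
          · rw [norm_zero]
            exact norm_nonneg w)
    rw [← cutT_insert ha, ← cutT_upd ha, add_sub_cancel_left] at h1
    have h3 : f (y + cutT (insert a T) w) - f y - ∑ e ∈ insert a T, f' e y * w e =
        (f (y + cutT (insert a T) w) - f (y + cutT T w) - f' a y * w a) +
          (f (y + cutT T w) - f y - ∑ e ∈ T, f' e y * w e) := by
      rw [Finset.sum_insert ha]
      ring
    rw [h3, Finset.card_insert_of_notMem ha]
    refine (abs_add_le _ _).trans ?_
    have h4 : L * ‖w‖ * |w a| ≤ L * ‖w‖ ^ 2 := by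
      have := mul_le_mul_of_nonneg_left h2 (mul_nonneg h0 (norm_nonneg w))
      calc L * ‖w‖ * |w a| ≤ L * ‖w‖ * ‖w‖ := this
        _ = L * ‖w‖ ^ 2 := by ring
    push_cast
    linarith

lemma c11_pdT (hd : ∀ e, PD e f (f' e)) (hm : ∀ e, Measurable (f' e)) (hC0 : 0 ≤ C)
    (hC : ∀ e y, |f' e y| ≤ C) (h0 : 0 ≤ L)
    (hL : ∀ e y w, |f' e (y + w) - f' e y| ≤ L * ‖w‖) :
    C11 f f' (Fintype.card ι * C + C) (Fintype.card ι * L) := by
  refine ⟨by positivity, by positivity, fun y w => ?_, hm, fun e y => ?_, fun y w => ?_⟩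
  · have h1 := lip_pdT hd hC0 hC y w Finset.univ
    rw [cutT_univ, Finset.card_univ] at h1
    have h2 : 0 ≤ C * ‖w‖ := mul_nonneg hC0 (norm_nonneg w)
    rw [add_mul]
    linarith
  · have h1 : (0 : ℝ) ≤ Fintype.card ι * C := by positivity
    linarith [hC e y]
  · have h1 := quad_pdT hd h0 hL y w Finset.univ
    rw [cutT_univ, Finset.card_univ] at h1
    rw [mul_assoc]
    exact h1

lemma dw_pdT (hd : ∀ e, PD e f (f' e)) (hm : ∀ e, Measurable (f' e)) (hC0 : 0 ≤ C)
    (hC : ∀ e y, |f' e y| ≤ C) (h0 : 0 ≤ L)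
    (hL : ∀ e y w, |f' e (y + w) - f' e y| ≤ L * ‖w‖) (w : ι → ℝ) :
    Dw w f fun z => ∑ e, w e * f' e z := by
  intro z
  have h1 := H785.C11.hasFDerivAt (c11_pdT hd hm hC0 hC h0 hL) (z + (0 : ℝ) • w)
  have h2 : HasDerivAt (fun t : ℝ => z + t • w) w 0 := by
    have h3 := ((hasDerivAt_id (0 : ℝ)).smul_const w).const_add z
    simp only [id, one_smul] at h3
    exact h3
  have h4 := h1.comp_hasDerivAt (0 : ℝ) h2
  rw [lf_apply, zero_smul, add_zero] at h4
  have h5 : ∑ e, w e * f' e z = ∑ e, f' e z * w e :=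
    Finset.sum_congr rfl fun e _ => mul_comm _ _
  beta_reduce
  rw [h5]
  exact h4

end part

/-! ### evaluations -/

section evs

variable {ι X : Type} [Fintype ι] [DecidableEq ι] [Fintype X] [DecidableEq X]
  {α : Type} [Fintype α] [DecidableEq α] {k c c1 c2 : ℝ} {φ : ι → X → ℝ}
  {μ : (ι → ℝ) → X → ℝ} {T : (ι → ℝ) → (α → X) → ℝ} {T' : (ι → ℝ) → (Option α → X) → ℝ}

/-- the form `w` -/
def fw (φ : ι → X → ℝ) (w : ι → ℝ) (v : X) : ℝ := ∑ e, w e * φ e v

/-- a bound of the test functions -/
def Cg (g : α → X → ℝ) : ℝ := ∑ x : α → X, |∏ a, g a (x a)|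

lemma Cg_nonneg (g : α → X → ℝ) : 0 ≤ Cg g := Finset.sum_nonneg fun _ _ => abs_nonneg _

/-- the general bound of an evaluation -/
lemma ev_le_sum (h : Dm μ c T) (g : α → X → ℝ) {b : α → X → ℝ}
    (hb : ∀ x : α → X, |∏ a, g a (x a)| ≤ ∑ a, b a (x a)) (z : ι → ℝ)
    (hn : 0 ≤ ∑ a, ∑ v, μ z v * b a v) :
    |ev T g z| ≤ c * ∑ a, ∑ v, μ z v * b a v := by
  obtain ⟨P, M, p, m, hP, hM, hT, hpm⟩ := h
  have hQ := hP.add hM
  calc |ev T g z| ≤ ∑ x, |T z x * ∏ a, g a (x a)| := Finset.abs_sum_le_sum_abs _ _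
    _ ≤ ∑ x, (P z x + M z x) * ∑ a, b a (x a) := by
        refine Finset.sum_le_sum fun x _ => ?_
        rw [abs_mul]
        have a1 : |T z x| ≤ P z x + M z x := by
          rw [hT, abs_le]
          have := hP.nn z x
          have := hM.nn z x
          constructor <;> linarith
        exact mul_le_mul a1 (hb x) (abs_nonneg _) (hQ.nn z x)
    _ = (p + m) * ∑ a, ∑ v, μ z v * b a v := by
        simp only [Finset.mul_sum]
        rw [Finset.sum_comm]
        refine Finset.sum_congr rfl fun a _ => ?_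
        rw [hQ.marg z a (b a), Finset.mul_sum]
    _ ≤ c * ∑ a, ∑ v, μ z v * b a v := mul_le_mul_of_nonneg_right hpm hn

lemma abs_ev_le (h : Dm μ c T) (g : α → X → ℝ) (z : ι → ℝ) : |ev T g z| ≤ c * Cg g := by
  obtain ⟨P, M, p, m, hP, hM, hT, hpm⟩ := h
  have hQ := hP.add hM
  calc |ev T g z| ≤ ∑ x, |T z x * ∏ a, g a (x a)| := Finset.abs_sum_le_sum_abs _ _
    _ ≤ ∑ x, (P z x + M z x) * Cg g := by
        refine Finset.sum_le_sum fun x _ => ?_
        rw [abs_mul]
        have a1 : |T z x| ≤ P z x + M z x := by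
          rw [hT, abs_le]
          have := hP.nn z x
          have := hM.nn z x
          constructor <;> linarith
        have a2 : |∏ a, g a (x a)| ≤ Cg g :=
          Finset.single_le_sum (f := fun x : α → X => |∏ a, g a (x a)|)
            (fun _ _ => abs_nonneg _) (Finset.mem_univ x)
        exact mul_le_mul a1 a2 (abs_nonneg _) (hQ.nn z x)
    _ = (p + m) * Cg g := by rw [← Finset.sum_mul, hQ.mass]
    _ ≤ c * Cg g := mul_le_mul_of_nonneg_right hpm (Cg_nonneg g)

/-- the arithmetic-geometric inequality for `p` equal weights -/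
lemma amgm_card [Nonempty α] (t : α → ℝ) :
    |∏ a, t a| ≤ ∑ a, 1 / (Fintype.card α : ℝ) * |t a| ^ Fintype.card α := by
  have hp : (0 : ℝ) < Fintype.card α := by exact_mod_cast Fintype.card_pos
  have hne : Fintype.card α ≠ 0 := Fintype.card_ne_zero
  have h1 := Real.geom_mean_le_arith_mean_weighted (Finset.univ : Finset α)
    (fun _ => 1 / (Fintype.card α : ℝ)) (fun a => |t a| ^ Fintype.card α)
    (fun _ _ => by positivity) (by
      rw [Finset.sum_const, Finset.card_univ, nsmul_eq_mul]
      field_simp) (fun a _ => by positivity)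
  rw [Real.finsetProd_rpow _ _ fun a _ => by positivity] at h1
  have h2 : (∏ a, |t a| ^ Fintype.card α) = (|∏ a, t a|) ^ Fintype.card α := by
    rw [Finset.prod_pow, Finset.abs_prod]
  rw [h2, one_div, Real.pow_rpow_inv_natCast (abs_nonneg _) hne] at h1
  refine h1.trans (le_of_eq (Finset.sum_congr rfl fun a _ => ?_))
  rw [one_div]

/-- **The evaluation on one test function.** -/
theorem ev_le_pow [Nonempty α] (h : Dm μ c T) (hμ : ∀ z v, 0 ≤ μ z v) (g : X → ℝ)
    (z : ι → ℝ) :
    |ev T (fun _ => g) z| ≤ c * ∑ v, μ z v * |g v| ^ Fintype.card α := by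
  have hp : (Fintype.card α : ℝ) ≠ 0 := by exact_mod_cast Fintype.card_ne_zero
  have e1 : ∑ _a : α, ∑ v, μ z v * (1 / (Fintype.card α : ℝ) * |g v| ^ Fintype.card α) =
      ∑ v, μ z v * |g v| ^ Fintype.card α := by
    rw [Finset.sum_const, Finset.card_univ, nsmul_eq_mul, Finset.mul_sum]
    refine Finset.sum_congr rfl fun v _ => ?_
    field_simp
  have h1 := ev_le_sum h (fun _ => g)
    (b := fun _ v => 1 / (Fintype.card α : ℝ) * |g v| ^ Fintype.card α)
    (fun x => amgm_card fun a => g (x a)) z (by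
      rw [e1]
      exact Finset.sum_nonneg fun v _ => mul_nonneg (hμ z v) (by positivity))
  rw [e1] at h1
  exact h1

lemma exg_const (g : X → ℝ) : exg (fun _ : α => g) g = fun _ => g := by
  funext o
  rcases o with _ | a <;> rfl

lemma exg_lin (g : α → X → ℝ) (w : ι → ℝ) (z : ι → ℝ) :
    ∑ e, w e * (k * ev T' (exg g (φ e)) z) = k * ev T' (exg g (fw φ w)) z := by
  simp only [ev_exg, fw, Finset.mul_sum, Finset.sum_mul]
  rw [Finset.sum_comm]
  refine Finset.sum_congr rfl fun x _ => ?_
  rw [Finset.sum_comm]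
  refine Finset.sum_congr rfl fun y _ => ?_
  refine Finset.sum_congr rfl fun e _ => ?_
  ring

/-- directional derivatives from kernels -/
lemma dir_gen {f : (ι → ℝ) → ℝ} {G : ι → α → X → ℝ}
    (hd : ∀ e, PD e f (fun z => k * ev T (G e) z)) (m1 : Dm μ c1 T) (h2 : DK k φ T T')
    (m2 : Dm μ c2 T') (w : ι → ℝ) : Dw w f fun z => ∑ e, w e * (k * ev T (G e) z) := by
  have c10 := m1.c0
  have c20 := m2.c0
  set C : ℝ := ∑ e, |k| * (c1 * Cg (G e)) with hC
  have hC0 : 0 ≤ C := Finset.sum_nonneg fun e _ =>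
    mul_nonneg (abs_nonneg k) (mul_nonneg c10 (Cg_nonneg _))
  set C2 : ℝ := ∑ e, ∑ e', |k| * (|k| * (c2 * Cg (exg (G e) (φ e')))) with hC2
  have hC20 : 0 ≤ C2 := Finset.sum_nonneg fun e _ => Finset.sum_nonneg fun e' _ =>
    mul_nonneg (abs_nonneg k) (mul_nonneg (abs_nonneg k) (mul_nonneg c20 (Cg_nonneg _)))
  refine dw_pdT hd (fun e => ((m1.eg_ev (G e)).meas).const_mul k) hC0 (fun e y => ?_)
    (L := Fintype.card ι * C2) (by positivity) (fun e y u => ?_) w
  · rw [abs_mul]
    refine (mul_le_mul_of_nonneg_left (abs_ev_le m1 _ _) (abs_nonneg k)).trans ?_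
    exact Finset.single_le_sum (f := fun e => |k| * (c1 * Cg (G e)))
      (fun e _ => mul_nonneg (abs_nonneg k) (mul_nonneg c10 (Cg_nonneg _))) (Finset.mem_univ e)
  · have h3 := lip_pdT (f := fun z => k * ev T (G e) z)
      (f' := fun e' z => k * (k * ev T' (exg (G e) (φ e')) z))
      (fun e' => (pd_ev h2 (G e) e').const_mul k) hC20 (fun e' y => ?_) y u Finset.univ
    · rw [cutT_univ, Finset.card_univ] at h3
      rw [mul_assoc]
      exact h3
    · rw [abs_mul, abs_mul]
      refine (mul_le_mul_of_nonneg_left (mul_le_mul_of_nonneg_left (abs_ev_le m2 _ _)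
        (abs_nonneg k)) (abs_nonneg k)).trans ?_
      refine (Finset.single_le_sum (f := fun e' => |k| * (|k| * (c2 * Cg (exg (G e) (φ e')))))
        (fun e' _ => mul_nonneg (abs_nonneg k) (mul_nonneg (abs_nonneg k)
          (mul_nonneg c20 (Cg_nonneg _)))) (Finset.mem_univ e')).trans ?_
      exact Finset.single_le_sum (f := fun e => ∑ e', |k| * (|k| * (c2 *
        Cg (exg (G e) (φ e'))))) (fun e _ => Finset.sum_nonneg fun e' _ =>
          mul_nonneg (abs_nonneg k) (mul_nonneg (abs_nonneg k)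
            (mul_nonneg c20 (Cg_nonneg _)))) (Finset.mem_univ e)

lemma dir_ev {T'' : (ι → ℝ) → (Option (Option α) → X) → ℝ} (h1 : DK k φ T T')
    (m1 : Dm μ c1 T') (h2 : DK k φ T' T'') (m2 : Dm μ c2 T'') (w : ι → ℝ) :
    Dw w (ev T fun _ => fw φ w) fun z => k * ev T' (fun _ => fw φ w) z := by
  have h3 := dir_gen (fun e => pd_ev h1 (fun _ => fw φ w) e) m1 h2 m2 w
  refine h3.congr fun z => ?_
  rw [exg_lin, exg_const]

end evs

end Vale.Agent.P146.Cum
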